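import Vale.Agent.P231.S3M2.Main
import Vale.Agent.P231.H584.BoxT
import Vale.Agent.P231.FE.Ang

/-!
# P231, stage 3, block (M2) (7): boxes; the choice of the base point
-/

set_option maxSynthPendingDepth 3
set_option linter.unusedSectionVars false
set_option linter.unusedVariables false

open Bundle Manifold Module MeasureTheory Set Metric Filter
open scoped ContDiff Manifold Topology

noncomputable section

namespace Vale.Agent.P231.S3M2

open Fm TW BX W
open Vale.Agent.P234 Vale.Agent.P231 Vale.Agent.P231.H775 Vale.Agent.P231.WE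

section Null

variable {V : Type*} [NormedAddCommGroup V] [NormedSpace ℝ V] [FiniteDimensional ℝ V]
variable {T : Type*} [NormedAddCommGroup T] [NormedSpace ℝ T] [FiniteDimensional ℝ T]
  [MeasurableSpace T] [BorelSpace T]

/-- a differentiable map from a space of smaller dimension has a null image -/
theorem null_image (ν : Measure T) [ν.IsAddHaarMeasure] (hd : finrank ℝ V < finrank ℝ T)
    {f : V → T} {U : Set V} (hf : ∀ x ∈ U, DifferentiableAt ℝ f x) : ν (f '' U) = 0 := by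
  let W := EuclideanSpace ℝ (Fin (finrank ℝ T - finrank ℝ V))
  let _ : MeasurableSpace V := borel V
  have : BorelSpace V := ⟨rfl⟩
  have hW : finrank ℝ W = finrank ℝ T - finrank ℝ V := by
    rw [finrank_euclideanSpace, Fintype.card_fin]
  have : Nontrivial W := nontrivial_of_finrank_pos (R := ℝ) (by omega)
  let μ : Measure V := (Module.finBasis ℝ V).addHaar
  let μ₀ : Measure W := volume
  have hd' : finrank ℝ (V × W) = finrank ℝ T := by
    rw [finrank_prod]
    omega
  let L : (V × W) ≃L[ℝ] T := ContinuousLinearEquiv.ofFinrankEq hd'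
  have h1 : (μ.prod μ₀) (U ×ˢ {0}) = 0 := by
    rw [Measure.prod_prod, measure_singleton, mul_zero]
  let ν' : Measure T := (μ.prod μ₀).map L
  have : ν'.IsAddHaarMeasure := ContinuousLinearEquiv.isAddHaarMeasure_map L _
  have h2 : ν' (L '' (U ×ˢ {0})) = 0 := by
    have h3 : MeasurableEmbedding (L : V × W → T) := L.toHomeomorph.measurableEmbedding
    rw [h3.map_apply, preimage_image_eq _ L.injective]
    exact h1
  have h3 : ν (L '' (U ×ˢ {0})) = 0 :=
    Measure.absolutelyContinuous_isAddHaarMeasure ν ν' h2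
  have h4 := addHaar_image_eq_zero_of_differentiableOn_of_addHaar_eq_zero ν
    (f := fun z => f (L.symm z).1) (s := L '' (U ×ˢ {0})) (by
      rintro _ ⟨z, hz, rfl⟩
      refine DifferentiableAt.differentiableWithinAt ?_
      refine DifferentiableAt.comp (g := f) (f := fun z => (L.symm z).1) (L z) ?_
        (differentiableAt_fst.comp _ L.symm.differentiableAt)
      rw [ContinuousLinearEquiv.symm_apply_apply]
      exact hf _ hz.1) h3
  refine measure_mono_null ?_ h4
  rintro _ ⟨x, hx, rfl⟩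
  exact ⟨L (x, 0), ⟨(x, 0), ⟨hx, rfl⟩, rfl⟩, by simp⟩

end Null

variable {E : Type*} [NormedAddCommGroup E] [NormedSpace ℝ E] [FiniteDimensional ℝ E]
  {M : Type*} [MetricSpace M] [ChartedSpace E M] [IsManifold 𝓘(ℝ, E) ∞ M]

section Base

/-- `S` is a null set in the chart at `q` -/
def NullM (E : Type*) [NormedAddCommGroup E] [NormedSpace ℝ E] [FiniteDimensional ℝ E]
    {M : Type*} [MetricSpace M] [ChartedSpace E M] (q : M) (S : Set M) : Prop :=
  ∃ (mE : MeasurableSpace E) (_ : BorelSpace E) (ν : Measure E), ν.IsAddHaarMeasure ∧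
    ν (chartAt E q '' (S ∩ (chartAt E q).source)) = 0

theorem NullM.union {q : M} {S S' : Set M} (h : NullM E q S) (h' : NullM E q S') :
    NullM E q (S ∪ S') := by
  obtain ⟨i1, i2, ν, i3, h1⟩ := h
  obtain ⟨j1, j2, ν', j3, h2⟩ := h'
  have hij : i1 = j1 := by
    rw [i2.measurable_eq, j2.measurable_eq]
  subst hij
  refine ⟨i1, i2, ν, i3, ?_⟩
  have h3 := Measure.absolutelyContinuous_isAddHaarMeasure ν ν' h2
  rw [union_inter_distrib_right, image_union]
  exact measure_union_null h1 h3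

theorem NullM.mono {q : M} {S S' : Set M} (h : NullM E q S) (h' : S' ⊆ S) :
    NullM E q S' := by
  obtain ⟨i1, i2, ν, i3, h1⟩ := h
  exact ⟨i1, i2, ν, i3, measure_mono_null (image_mono (inter_subset_inter_left _ h')) h1⟩

theorem NullM.exists_not_mem {q : M} {S : Set M} (h : NullM E q S) : ∃ p, p ∉ S := by
  obtain ⟨i1, i2, ν, i3, h1⟩ := h
  by_contra h2
  push Not at h2
  have h3 : chartAt E q '' (S ∩ (chartAt E q).source) = (chartAt E q).target := by
    rw [eq_univ_of_forall h2, univ_inter]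
    exact (chartAt E q).image_source_eq_target
  rw [h3] at h1
  exact ((chartAt E q).open_target.measure_pos ν
    ⟨_, (chartAt E q).map_source (mem_chart_source E q)⟩).ne' h1

/-- a smooth plot of dimension less than `dim M` has a null range -/
theorem nullM_range {V : Type} [NormedAddCommGroup V] [NormedSpace ℝ V] [FiniteDimensional ℝ V]
    {f : V → M} (hf : ∀ x, (W.dM E M).At f x) (hd : finrank ℝ V < finrank ℝ E) (q : M) :
    NullM E q (range f) := by
  let _ : MeasurableSpace E := borel E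
  have : BorelSpace E := ⟨rfl⟩
  refine ⟨inferInstance, inferInstance, (Module.finBasis ℝ E).addHaar, inferInstance, ?_⟩
  have h1 := null_image (Module.finBasis ℝ E).addHaar hd (f := fun x => chartAt E q (f x))
    (U := f ⁻¹' (chartAt E q).source) (by
      intro x hx
      have h2 : ContMDiffAt 𝓘(ℝ, V) 𝓘(ℝ, E) ∞ f x := (hf x).self_of_nhds
      have h3 : ContMDiffAt 𝓘(ℝ, E) 𝓘(ℝ, E) ∞ (chartAt E q) (f x) :=
        (contMDiffOn_chart (I := 𝓘(ℝ, E)) (n := ∞) (x := q)).contMDiffAt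
          ((chartAt E q).open_source.mem_nhds hx)
      exact ((h3.comp x h2).contDiffAt).differentiableAt (by simp))
  refine measure_mono_null ?_ h1
  rintro _ ⟨_, ⟨⟨x, rfl⟩, hx⟩, rfl⟩
  exact ⟨x, hx, rfl⟩

end Base

variable [RiemannianBundle (fun x : M => TangentSpace 𝓘(ℝ, E) x)]
  [IsContMDiffRiemannianBundle 𝓘(ℝ, E) ∞ E (fun x : M => TangentSpace 𝓘(ℝ, E) x)]
  {e : ∀ x : M, TangentSpace 𝓘(ℝ, E) x → M}
  [CompactSpace M] [ConnectedSpace M] [IsRiemannianManifold 𝓘(ℝ, E) M]

variable {D : ℝ} {p : M} {n : ℕ}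
  {Pi : TangentSpace 𝓘(ℝ, E) p → TangentSpace 𝓘(ℝ, E) p →L[ℝ] TangentSpace 𝓘(ℝ, E) p}
  {o : TangentSpace 𝓘(ℝ, E) p → Fm.Lam (TangentSpace 𝓘(ℝ, E) p)}
  {ρ : TangentSpace 𝓘(ℝ, E) p → ℝ} {r₀ : ℝ}

/-- **(M2) for good boxes** -/
theorem int_kap (F : Facts e) (hD : 0 < D) (hB : InjGE e D)
    (hdiam : ∀ p q : M, dist p q ≤ D)
    (hl : ∀ x y : M, dist x y = D → finrank ℝ (Pl e D x y) = 2 * n + 2)
    (hE : finrank ℝ E = 2 * (2 * n + 2))
    (hJ : FE.LineP e D p n Pi o) (hρ : Rho e D p ρ r₀) (a : ℝ)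
    {X : Type*} {dX : Dif X} {T : ℝ} {Φ : X × ℝ → X} (hΦ : IsFlow dX T Φ) (B : H584.Bt dX)
    (hB' : B.Good hΦ) (hN : B.N = 2 * n + 2) {h : X → M} (hh : dX.Map (dM E M) h)
    (hinv : ∀ x t, h (Φ (x, t)) = h x) (hp : ∀ y, h (B.G y) ≠ p) :
    ∃ N : ℤ, B.L (Form.pull h hh (FE.FF F hD hB hdiam hl hJ hρ a)) = FE.kap n a * N := by
  have hO : Co.IsO dX {x | h x ≠ p} := ⟨fun {V} _ _ _ {u x} hu hx => by
    have h1 : ∀ᶠ y in 𝓝 x, ContMDiffAt 𝓘(ℝ, V) 𝓘(ℝ, E) ∞ (h ∘ u) y := hh hu
    exact h1.self_of_nhds.continuousAt.eventually (isOpen_ne.mem_nhds hx)⟩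
  have hi : ∀ x ∈ {x | h x ≠ p}, ∀ t, Φ (x, t) ∈ {x | h x ≠ p} := fun x hx t => by
    change h (Φ (x, t)) ≠ p
    rw [hinv]
    exact hx
  have htf := hB' {x | h x ≠ p} hO hp hi
  have hh' : (dX.on {x | h x ≠ p}).Map ((dM E M).on {z | z ≠ p}) h := fun hu => ⟨hh hu.1, hu.2⟩
  have hex : ∀ ν : Form ((dM E M).on {z | z ≠ p}),
      JD B.b B.A (ν.d.val (h ∘ B.G)) = 0 := by
    intro ν
    have h1 := htf.bas (Form.pull h hh' ν) (by
      refine Form.ext_val fun V _ _ _ u x hu => ?_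
      have h2 : h ∘ (Φ ∘ u) = h ∘ (fun y => (u y).1) := by
        funext y
        exact hinv _ _
      refine (Form.pull_val (H584.isFlow_on hΦ hi).map _ hu).trans
        ((Form.pull_val hh' ν ((H584.isFlow_on hΦ hi).map hu)).trans (Eq.trans ?_
        (Form.pull_val Dif.map_fst (Form.pull h hh' ν) hu).symm))
      refine Eq.trans ?_ (Form.pull_val hh' ν hu.1).symm
      rw [h2])
    rw [← Form.pull_d] at h1
    have h3 : B.LO hp (Form.pull h hh' ν.d) = JD B.b B.A (ν.d.val (h ∘ B.G)) := by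
      unfold H584.Bt.LO JD
      rw [H584.bxL_eq]
      refine integral_congr_ae (Eventually.of_forall fun x => ?_)
      change evalForm ((Form.pull h hh' ν.d).val B.G x) B.b = _
      rw [Form.pull_val hh' _ (B.plot_on hp x)]
    rw [h3] at h1
    exact h1
  have hval : B.L (Form.pull h hh (FE.FF F hD hB hdiam hl hJ hρ a)) =
      JD B.b B.A ((FE.FF F hD hB hdiam hl hJ hρ a).val (h ∘ B.G)) := by
    rw [H584.Bt.L_eq]
    unfold JD
    refine integral_congr_ae (Eventually.of_forall fun x => ?_)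
    change evalForm ((Form.pull h hh _).val B.G x) B.b = _
    rw [Form.pull_val hh _ (B.plot x)]
  rw [hval]
  have hplot : ∀ x, (dM E M).At (h ∘ B.G) x := fun x => hh (B.plot x)
  have hcpt := B.cpt
  have h0 := B.null_frontier
  obtain ⟨EB, N, b, A, cpt, cvx, faces, G, plot, rng⟩ := B
  dsimp only at hN hex hplot hp hcpt h0 ⊢
  subst hN
  obtain ⟨N, hN⟩ := exists_int_JD F hD hB hdiam hl hE hJ hρ a b hcpt h0 hplot hp hex
  rcases abs_cases (a * ((2 * n + 1).factorial : ℝ)) with ⟨h1, -⟩ | ⟨h1, -⟩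
  · exact ⟨N, by rw [hN, FE.kap, h1]⟩
  · exact ⟨-N, by rw [hN, FE.kap, h1]; push_cast; ring⟩

end Vale.Agent.P231.S3M2
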