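import Vale.Agent.P231.S3M2.Box
import Vale.Agent.P231.S2I.Cmp
import Vale.Agent.P231.FE.Lin
import Vale.Agent.P231.WQ.Psi

/-!
# P231, stage 3, block (M2) (8): change of the base point of the closed form; integrality for
every base point
-/

set_option maxSynthPendingDepth 3
set_option linter.unusedSectionVars false
set_option linter.unusedVariables false

open Bundle Manifold Set Filter Module MeasureTheory
open scoped ContDiff Manifold Topology Real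

namespace Vale.Agent.P231.S3M2

noncomputable section

open Vale.Agent.P234 Vale.Agent.P231 Vale.Agent.P231.Fm Vale.Agent.P231.W Vale.Agent.P231.WR
  Vale.Agent.P231.H584


variable {E : Type*} [NormedAddCommGroup E] [NormedSpace ℝ E]
  {M : Type*} [MetricSpace M] [ChartedSpace E M]
  [RiemannianBundle (fun x : M => TangentSpace 𝓘(ℝ, E) x)]
  {e : ∀ x : M, TangentSpace 𝓘(ℝ, E) x → M}
  [FiniteDimensional ℝ E] [IsManifold 𝓘(ℝ, E) ∞ M]
  [IsContMDiffRiemannianBundle 𝓘(ℝ, E) ∞ E (fun x : M => TangentSpace 𝓘(ℝ, E) x)]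
  [CompactSpace M] [ConnectedSpace M] [IsRiemannianManifold 𝓘(ℝ, E) M]

variable (F : Facts e) {D : ℝ} (hD : 0 < D) (hB : InjGE e D) (hdiam : ∀ p q : M, dist p q ≤ D)
  {n : ℕ}

/-- the sphere integral is linear and kills exact forms -/
theorem kf_lin {l : ℕ} [NeZero l] (s : ℝ) (b w : Form (dPr e D)) (f : S2II.Fr e D l) :
    S2II.kf F hD hB hdiam (s • b + w.d) f = s * S2II.kf F hD hB hdiam b f := by
  rw [S2II.kf_eq, S2II.kf_eq]
  have hc := S2II.cut_rct l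
  have hs : ∀ v : Form (dPr e D), ContDiffOn ℝ ∞ (v.val (S2II.fam F hD hB hdiam f)) {0}ᶜ :=
    fun v y hy => (v.smooth (S2II.fam_at F hD hB hdiam f hy)).contDiffWithinAt
  have i1 := integrable_dR (volume : Measure (S2II.Eul l)) (S2II.bas l) (hs b) hc
  have i2 := integrable_dR (volume : Measure (S2II.Eul l)) (S2II.bas l) (hs w.d) hc
  have h1 : ∀ y : S2II.Eul l, evalForm (Fm.dx (fderiv ℝ (S2II.rct l) y) *
      (s • b + w.d).val (S2II.fam F hD hB hdiam f) y) (S2II.bas l) =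
      s * evalForm (Q.dR (S2II.rct l) y * b.val (S2II.fam F hD hB hdiam f) y) (S2II.bas l) +
        evalForm (Q.dR (S2II.rct l) y * w.d.val (S2II.fam F hD hB hdiam f) y) (S2II.bas l) := by
    intro y
    rw [Form.add_val, Form.smul_val, mul_add, mul_smul_comm, Q.evalForm_add, Q.evalForm_smul]
    rfl
  simp only [h1]
  rw [integral_add (i1.const_mul s) i2, integral_const_mul]
  have h2 : ∫ y : S2II.Eul l, evalForm (Q.dR (S2II.rct l) y *
      w.d.val (S2II.fam F hD hB hdiam f) y) (S2II.bas l) = 0 := by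
    rw [← int_dR_extd volume (S2II.bas l) (hs w) hc]
    refine integral_congr_ae (Eventually.of_forall fun y => ?_)
    rcases eq_or_ne y 0 with rfl | hy
    · simp only [hc.dR_near.self_of_nhds, zero_mul]
    · simp only [Form.d_val _ (S2II.fam_at F hD hB hdiam f hy)]
  rw [h2, add_zero]
  rfl

/-- **the closed form at another base point** -/
theorem exists_cmp (hdim : 2 * n + 3 < finrank ℝ E)
    (hl : ∀ x y : M, dist x y = D → finrank ℝ (H775.Pl e D x y) = 2 * n + 2)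
    {p p' : M}
    {Pi : TangentSpace 𝓘(ℝ, E) p → TangentSpace 𝓘(ℝ, E) p →L[ℝ] TangentSpace 𝓘(ℝ, E) p}
    {o : TangentSpace 𝓘(ℝ, E) p → Fm.Lam (TangentSpace 𝓘(ℝ, E) p)}
    {ρ : TangentSpace 𝓘(ℝ, E) p → ℝ} {r₀ : ℝ}
    (hJ : FE.LineP e D p n Pi o) (hρ : WE.Rho e D p ρ r₀)
    {Pi' : TangentSpace 𝓘(ℝ, E) p' → TangentSpace 𝓘(ℝ, E) p' →L[ℝ] TangentSpace 𝓘(ℝ, E) p'}
    {o' : TangentSpace 𝓘(ℝ, E) p' → Fm.Lam (TangentSpace 𝓘(ℝ, E) p')}
    {ρ' : TangentSpace 𝓘(ℝ, E) p' → ℝ} {r₀' : ℝ}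
    (hJ' : FE.LineP e D p' n Pi' o') (hρ' : WE.Rho e D p' ρ' r₀') {a : ℝ} (ha : a ≠ 0) :
    ∃ (s : ℝ) (Γ : Form (dM E M)), (s = 1 ∨ s = -1) ∧ FE.FF F hD hB hdiam hl hJ hρ a =
      s • FE.FF F hD hB hdiam hl hJ' hρ' a + Γ.d := by
  obtain ⟨s, Γ, h1, -⟩ := CoC.gen_FF F hD hB hdiam hl hJ' hρ' a (by omega) ha (2 * n + 2)
    (FE.FF F hD hB hdiam hl hJ hρ a) (by omega) (FE.FF_d F hD hB hdiam hl hJ hρ a)
    (S2II.isDeg_FF F hD hB hdiam hl hJ hρ a)
  have h2 : (2 * n + 2) / (2 * n + 2) = 1 := Nat.div_self (by omega)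
  rw [h2, pow_one] at h1
  refine ⟨s, Γ, ?_, h1⟩
  obtain ⟨v⟩ : Nonempty (UT E M) := by
    have : Nontrivial E := nontrivial_of_finrank_pos (R := ℝ) (by omega)
    obtain ⟨v, -⟩ := S2II.exists_foot (E := E) p
    exact ⟨v⟩
  obtain ⟨W, hW⟩ := exists_isLF F hD hB hdiam (l := 2 * n + 1) hl v
  obtain ⟨f, -⟩ : ∃ f : S2II.Fr e D (2 * n + 1), True := ⟨⟨(v, W), hW⟩, trivial⟩
  have h3 := S2II.abs_kf_b0P F hD hB hdiam (by omega) hl hJ hρ a f
  have h4 := S2II.abs_kf_b0P F hD hB hdiam (by omega) hl hJ' hρ' a f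
  rw [h1, S2I.b0P_lin, S2I.b0P_exact, kf_lin, abs_mul, h4] at h3
  have h5 := S2II.kappa_pos (n := n) ha
  have h6 : |s| = 1 := by
    have : (|s| - 1) * (2 * S2II.kappa n a) = 0 := by linarith
    rcases mul_eq_zero.1 this with h | h
    · linarith
    · linarith
  exact (abs_eq zero_le_one).1 h6

/-- **(M2)**: the integral over a good box of dimension `2 n + 2` of the pull back of `F` by an
invariant map is an integral multiple of `κ` -/
theorem int_all (hl : ∀ x y : M, dist x y = D → finrank ℝ (H775.Pl e D x y) = 2 * n + 2)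
    (hn : 1 ≤ n) (hE : finrank ℝ E = 2 * (2 * n + 2)) {p : M}
    {Pi : TangentSpace 𝓘(ℝ, E) p → TangentSpace 𝓘(ℝ, E) p →L[ℝ] TangentSpace 𝓘(ℝ, E) p}
    {o : TangentSpace 𝓘(ℝ, E) p → Fm.Lam (TangentSpace 𝓘(ℝ, E) p)}
    {ρ : TangentSpace 𝓘(ℝ, E) p → ℝ} {r₀ : ℝ}
    (hJ : FE.LineP e D p n Pi o) (hρ : WE.Rho e D p ρ r₀) {a : ℝ} (ha : a ≠ 0)
    {X : Type*} {dX : Dif X} {T : ℝ} {Φ : X × ℝ → X} (hΦ : IsFlow dX T Φ) (B : Bt dX)
    (hB' : B.Good hΦ) (hN : B.N = 2 * n + 2) {h : X → M} (hh : dX.Map (dM E M) h)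
    (hinv : ∀ x t, h (Φ (x, t)) = h x) :
    ∃ N : ℤ, B.L (Form.pull h hh (FE.FF F hD hB hdiam hl hJ hρ a)) = FE.kap n a * N := by
  -- a point missed by the box
  have h1 : ∀ x, (dM E M).At (h ∘ B.G) x := fun x => hh (B.plot x)
  obtain ⟨q, hq⟩ := (nullM_range h1 (by rw [B.finrank_E]; omega) p).exists_not_mem
  have hq' : ∀ y, h (B.G y) ≠ q := fun y hy => hq ⟨y, hy⟩
  obtain ⟨o', hJ'⟩ := FE.exists_line F hD hB hdiam (n := n) hl (by omega) q
  obtain ⟨ρ', r₀', hρ'⟩ := WQ.exists_rho (E := E) (p := q) hD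
  obtain ⟨s, Γ, hs, hc⟩ := exists_cmp F hD hB hdiam (by omega) hl hJ hρ hJ' hρ' ha
  obtain ⟨N, hN'⟩ := int_kap F hD hB hdiam hl hE hJ' hρ' a hΦ B hB' hN hh hinv hq'
  have hb : Basic Φ hΦ.map (Form.pull h hh Γ) := by
    refine Form.ext_val fun V _ _ _ u x hu => ?_
    have h2 : h ∘ (Φ ∘ u) = h ∘ (fun y => (u y).1) := by
      funext y
      exact hinv _ _
    refine (Form.pull_val hΦ.map _ hu).trans ((Form.pull_val hh Γ (hΦ.map hu)).trans
      (Eq.trans ?_ (Form.pull_val Dif.map_fst (Form.pull h hh Γ) hu).symm))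
    refine Eq.trans ?_ (Form.pull_val hh Γ hu.1).symm
    rw [h2]
  have h3 : Form.pull h hh (FE.FF F hD hB hdiam hl hJ hρ a) =
      s • Form.pull h hh (FE.FF F hD hB hdiam hl hJ' hρ' a) + (Form.pull h hh Γ).d := by
    rw [hc, Form.pull_add', Co.pull_smul, Form.pull_d]
  rw [h3, map_add, map_smul, hB'.tf.bas _ hb, add_zero, hN', smul_eq_mul]
  rcases hs with rfl | rfl
  · exact ⟨N, by ring⟩
  · exact ⟨-N, by push_cast; ring⟩

end

end Vale.Agent.P231.S3M2
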