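import Vale.Agent.P231.S3M2.Pj
import Vale.Agent.P231.S2I.Dec
import Vale.Agent.P231.TW.Prod

/-!
# P231, stage 3, block (M2) (2): the integral of the flat form
-/

set_option linter.unusedSectionVars false
set_option linter.unusedVariables false

open Module MeasureTheory Set Metric Filter
open scoped ContDiff Topology

noncomputable section

namespace Vale.Agent.P231.S3M2

open Fm
open Q (dR Cut)
open S2I (at0_pb)

section Stokes

variable {W : Type*} [NormedAddCommGroup W] [NormedSpace ℝ W] [FiniteDimensional ℝ W]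
  [MeasurableSpace W] [BorelSpace W]

theorem smooth_dR_mul {η : W → Lam W} (hη : ContDiffOn ℝ ∞ η {0}ᶜ) {r : W → ℝ} {K : Set W}
    (hr : Cut r K) : ContDiff ℝ ∞ (fun y => dR r y * η y) := by
  refine contDiff_iff_contDiffAt.2 fun y => ?_
  rcases eq_or_ne y 0 with rfl | hy
  · refine (contDiffAt_const (c := (0 : Lam W))).congr_of_eventuallyEq ?_
    filter_upwards [hr.dR_near] with z hz
    rw [hz, zero_mul]
  · exact (Q.contDiff_dR hr.smooth).contDiffAt.mul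
      (hη.contDiffAt (isOpen_compl_singleton.mem_nhds hy))

theorem supp_dR_mul {η : W → Lam W} {r : W → ℝ} {K : Set W}
    (hr : Cut r K) : HasCompactSupport (fun y => dR r y * η y) :=
  HasCompactSupport.intro hr.compact fun y hy => by rw [hr.dR_out hy, zero_mul]

theorem integrable_dR (μ : Measure W) [μ.IsAddHaarMeasure] {k : ℕ} (b : Fin k → W)
    {η : W → Lam W} (hη : ContDiffOn ℝ ∞ η {0}ᶜ) {r : W → ℝ} {K : Set W} (hr : Cut r K) :
    Integrable (fun y => evalForm (dR r y * η y) b) μ :=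
  (evalL b).integrable_comp ((smooth_dR_mul hη hr).continuous.integrable_of_hasCompactSupport
    (supp_dR_mul hr))

/-- Stokes on the sphere -/
theorem int_dR_extd (μ : Measure W) [μ.IsAddHaarMeasure] {k : ℕ} (b : Fin k → W)
    {η : W → Lam W} (hη : ContDiffOn ℝ ∞ η {0}ᶜ) {r : W → ℝ} {K : Set W} (hr : Cut r K) :
    ∫ y, evalForm (dR r y * extd η y) b ∂μ = 0 := by
  have h1 := integral_evalForm_extd μ b ((smooth_dR_mul hη hr).of_le (by simp))
    (supp_dR_mul hr)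
  have h2 : ∀ y, evalForm (extd (fun y => dR r y * η y) y) b =
      -evalForm (dR r y * extd η y) b := by
    intro y
    rcases eq_or_ne y 0 with rfl | hy
    · have h3 : (fun y => dR r y * η y) =ᶠ[𝓝 (0 : W)] fun _ => 0 := by
        filter_upwards [hr.dR_near] with z hz
        rw [hz, zero_mul]
      rw [extd_congr h3, extd_const, hr.dR_near.self_of_nhds, zero_mul, Q.evalForm_zero, neg_zero]
    · rw [extd_mul ((Q.contDiff_dR hr.smooth).differentiable (by simp) y)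
        ((hη.contDiffAt (isOpen_compl_singleton.mem_nhds hy)).differentiableAt (by simp)),
        Q.extd_dR hr.smooth, zero_mul, zero_add]
      have h5 : inv (dR r y) = -dR r y := inv_dx _
      rw [h5, neg_mul, ← neg_one_smul ℝ, Q.evalForm_smul, neg_one_mul]
  simp only [h2] at h1
  rw [integral_neg, neg_eq_zero] at h1
  exact h1

/-- **homotopy invariance of the integral over the sphere** -/
theorem int_dR_homotopy (μ : Measure W) [μ.IsAddHaarMeasure] {k : ℕ} (b : Fin k → W)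
    {w : W × ℝ → Lam (W × ℝ)} (hw : ContDiffOn ℝ ∞ w ({0}ᶜ ×ˢ univ))
    (hcl : ∀ y ≠ 0, ∀ t, extd w (y, t) = 0) {r : W → ℝ} {K : Set W} (hr : Cut r K) :
    ∫ y, evalForm (dR r y * at0 (w (y, 1))) b ∂μ =
      ∫ y, evalForm (dR r y * at0 (w (y, 0))) b ∂μ := by
  have ho : IsOpen ({0}ᶜ : Set W) := isOpen_compl_singleton
  have hsl : ∀ t : ℝ, ContDiffOn ℝ ∞ (fun y => at0 (w (y, t))) {0}ᶜ := by
    intro t
    refine (at0 (E := W)).contDiff.comp_contDiffOn (hw.comp (s := {0}ᶜ)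
      (f := fun y : W => (y, t)) ?_ fun y hy => ⟨hy, mem_univ _⟩)
    exact (contDiff_id.prodMk contDiff_const).contDiffOn
  have h1 := int_dR_extd μ b (contDiffOn_kop (n := ⊤) ho hw) hr
  have h2 : ∀ y, evalForm (dR r y * extd (kop w) y) b =
      evalForm (dR r y * at0 (w (y, 1))) b - evalForm (dR r y * at0 (w (y, 0))) b := by
    intro y
    rcases eq_or_ne y 0 with rfl | hy
    · rw [hr.dR_near.self_of_nhds, zero_mul, zero_mul, zero_mul, sub_self, Q.evalForm_zero]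
    · have h3 := kop_homotopy ho (hw.of_le (by simp)) hy
      have h4 : kop (extd w) y = 0 := by
        rw [kop]
        simp only [hcl y hy, map_zero]
        exact intervalIntegral.integral_zero
      rw [h4, zero_add] at h3
      rw [← h3, mul_sub, Q.evalForm_sub]
  simp only [h2] at h1
  rw [integral_sub (integrable_dR μ b (hsl 1) hr) (integrable_dR μ b (hsl 0) hr),
    sub_eq_zero] at h1
  exact h1

end Stokes

variable {T : Type*} [NormedAddCommGroup T] [InnerProductSpace ℝ T] [FiniteDimensional ℝ T]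
variable {n : ℕ} {Pi : T → T →L[ℝ] T} {o : T → Lam T} {v₀ v₁ : T}
variable {W : Type*} [NormedAddCommGroup W] [InnerProductSpace ℝ W] [FiniteDimensional ℝ W]

/-- the homotopy of the affine plane `P v₀ + v₁` to `P v₀` -/
def GG (v₁ : T) (ι : W →ₗᵢ[ℝ] T) (p : W × ℝ) : T := ι p.1 + p.2 • v₁

theorem GG_smooth (v₁ : T) (ι : W →ₗᵢ[ℝ] T) : ContDiff ℝ ∞ (GG v₁ ι) :=
  (ι.toContinuousLinearMap.contDiff.comp contDiff_fst).add (contDiff_snd.smul contDiff_const)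

section Two

variable (h2 : Two (2 * n + 2) Pi v₀ v₁) (ι : W →ₗᵢ[ℝ] T) (hι : ∀ w, Pi v₀ (ι w) = ι w)
include h2 hι

theorem GG_ne {p : W × ℝ} (hp : p.1 ≠ 0 ∨ p.2 ≠ 0) : GG v₁ ι p ≠ 0 := by
  intro h0
  have h1 : ι p.1 = -(p.2 • v₁) := eq_neg_of_add_eq_zero_left h0
  by_cases ht : p.2 = 0
  · rw [ht, zero_smul, neg_zero, map_eq_zero_iff ι ι.injective] at h1
    rcases hp with hp | hp
    · exact hp h1
    · exact hp ht
  · have h3 : Pi v₀ v₁ = v₁ := by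
      have h4 : v₁ = ι (-(p.2⁻¹ • p.1)) := by
        rw [map_neg, map_smul, h1, smul_neg, neg_neg, inv_smul_smul₀ ht]
      rw [h4, hι]
    exact h2.ne (h2.p₀.eq h2.sp h2.z₁ h3)

theorem GG_pl {p : W × ℝ} (hp : p.1 ≠ 0) : Pi (GG v₁ ι p) ≠ Pi v₁ := by
  intro h0
  have h1 : Pi v₁ (GG v₁ ι p) = GG v₁ ι p := by
    rw [← h0, h2.sp.self _ (GG_ne h2 ι hι (Or.inl hp))]
  have h3 : Pi v₁ (ι p.1) = ι p.1 := by
    have h4 : ι p.1 = GG v₁ ι p - p.2 • v₁ := by
      rw [GG]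
      abel
    rw [h4, map_sub, h1, map_smul, h2.sp.self _ h2.z₁]
  have h4 := h2.p₀.inter h2.sp h2.p₁ h2.ne (hι _) h3
  rw [map_eq_zero_iff ι ι.injective] at h4
  exact hp h4

theorem GG_pln {p : W × ℝ} (hp : p.1 ≠ 0) : Pln Pi (Pi (GG v₁ ι p)) :=
  ⟨_, GG_ne h2 ι hι (Or.inl hp), rfl⟩

theorem PG_smooth {p : W × ℝ} (hp : p.1 ≠ 0 ∨ p.2 ≠ 0) :
    ContDiffAt ℝ ∞ (fun p => Pi (GG v₁ ι p)) p :=
  (h2.sp.smooth _ (GG_ne h2 ι hι hp)).comp p (GG_smooth v₁ ι).contDiffAt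

/-- the other section -/
theorem SG_smooth {p : W × ℝ} (hp : p.1 ≠ 0) :
    ContDiffAt ℝ ∞ (fun p => sg Pi v₀ v₁ (Pi (GG v₁ ι p))) p :=
  ContDiffAt.comp p (g := sg Pi v₀ v₁) (f := fun p => Pi (GG v₁ ι p))
    (h2.sg_smooth (GG_pln h2 ι hι hp) (GG_pl h2 ι hι hp)) (PG_smooth h2 ι hι (Or.inl hp))

theorem SG_zero {w : W} (hw : w ≠ 0) : sg Pi v₀ v₁ (Pi (GG v₁ ι (w, 0))) = v₀ := by
  have h1 : GG v₁ ι (w, 0) = ι w := by simp [GG]
  have h3 : ι w ≠ 0 := by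
    rw [Ne, map_eq_zero_iff ι ι.injective]
    exact hw
  rw [h1, ← h2.p₀.eq h2.sp h3 (hι w), h2.sg_self]

/-- the size of the angle between `P v₁` and the planes far away -/
theorem exists_delta {ε : ℝ} (hε : 0 < ε) : ∃ δ > 0, ∀ w : W, ε ≤ ‖w‖ →
    δ ≤ ‖Pi (ι w + v₁) v₁ - v₁‖ ^ 2 := by
  by_cases hne : (sphere (0 : W) 1).Nonempty
  · let f : W × ℝ → ℝ := fun p => ‖Pi (GG v₁ ι p) v₁ - v₁‖ ^ 2
    have hcp : IsCompact (sphere (0 : W) 1 ×ˢ Icc (0 : ℝ) (1 / ε)) :=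
      (isCompact_sphere _ _).prod isCompact_Icc
    have hs0 : ∀ p ∈ sphere (0 : W) 1 ×ˢ Icc (0 : ℝ) (1 / ε), p.1 ≠ 0 := by
      rintro p ⟨hp, -⟩ h0
      rw [mem_sphere_zero_iff_norm, h0, norm_zero] at hp
      exact zero_ne_one hp
    have hf : ContinuousOn f (sphere (0 : W) 1 ×ˢ Icc (0 : ℝ) (1 / ε)) := by
      intro p hp
      have h1 := (PG_smooth h2 ι hι (p := p) (Or.inl (hs0 p hp))).continuousAt
      have h3 : ContinuousAt (fun p => Pi (GG v₁ ι p) v₁) p := h1.clm_apply continuousAt_const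
      exact ((h3.sub continuousAt_const).norm.pow 2).continuousWithinAt
    obtain ⟨p, hp, hmin⟩ := hcp.exists_isMinOn
      (hne.prod ⟨0, left_mem_Icc.2 (by positivity)⟩) hf
    refine ⟨f p, ?_, fun w hw => ?_⟩
    · have h1 : Pi (GG v₁ ι p) v₁ - v₁ ≠ 0 := by
        intro h0
        refine GG_pl h2 ι hι (hs0 p hp) ((GG_pln h2 ι hι (hs0 p hp)).eq h2.sp h2.z₁ ?_)
        exact sub_eq_zero.1 h0
      have : 0 < ‖Pi (GG v₁ ι p) v₁ - v₁‖ := norm_pos_iff.2 h1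
      positivity
    · have hw0 : 0 < ‖w‖ := lt_of_lt_of_le hε hw
      have h1 := hmin (show (‖w‖⁻¹ • w, ‖w‖⁻¹) ∈ sphere (0 : W) 1 ×ˢ Icc (0 : ℝ) (1 / ε) from by
        refine ⟨?_, by positivity, ?_⟩
        · rw [mem_sphere_zero_iff_norm, norm_smul, norm_inv, norm_norm,
            inv_mul_cancel₀ hw0.ne']
        · rw [one_div]
          exact inv_anti₀ hε hw)
      refine h1.trans_eq ?_
      change ‖Pi (GG v₁ ι (‖w‖⁻¹ • w, ‖w‖⁻¹)) v₁ - v₁‖ ^ 2 = _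
      have h3 : GG v₁ ι (‖w‖⁻¹ • w, ‖w‖⁻¹) = ‖w‖⁻¹ • (ι w + v₁) := by
        simp only [GG, map_smul, smul_add]
      have h4 : ι w + v₁ ≠ 0 := by
        have := GG_ne h2 ι hι (p := (w, 1)) (Or.inr one_ne_zero)
        simpa [GG] using this
      rw [h3, h2.sp.hom h4 (inv_ne_zero hw0.ne')]
  · refine ⟨1, one_pos, fun w hw => ?_⟩
    exfalso
    have hw0 : 0 < ‖w‖ := lt_of_lt_of_le hε hw
    exact hne ⟨‖w‖⁻¹ • w, by
      rw [mem_sphere_zero_iff_norm, norm_smul, norm_inv, norm_norm, inv_mul_cancel₀ hw0.ne']⟩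

end Two

section Om

variable (hs : FE.OS n Pi o) (h2 : Two (2 * n + 2) Pi v₀ v₁) (ι : W →ₗᵢ[ℝ] T)
  (hι : ∀ w, Pi v₀ (ι w) = ι w) (a : ℝ)
include hs h2 hι

omit h2 hι in
/-- a pull back of the angular form by a smooth map -/
theorem psi_pb_smooth {V : Type*} [NormedAddCommGroup V] [NormedSpace ℝ V]
    [FiniteDimensional ℝ V] {f : V → T} {x : V} (hf : ContDiffAt ℝ ∞ f x) (h0 : f x ≠ 0) :
    ContDiffAt ℝ ∞ (pb f (FE.psi n a Pi o)) x :=
  contDiffAt_pb (m := ∞) (n := ∞) hf (hs.psi_smooth a h0) (by simp)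

omit h2 hι in
theorem extd_pb_psi {V : Type*} [NormedAddCommGroup V] [NormedSpace ℝ V]
    [FiniteDimensional ℝ V] {f : V → T} {x : V} (hf : ContDiffAt ℝ ∞ f x) (h0 : f x ≠ 0) :
    extd (pb f (FE.psi n a Pi o)) x = pb f (extd (FE.psi n a Pi o)) x :=
  extd_pb (hf.of_le two_le_inf) ((hs.psi_smooth a h0).differentiableAt (by simp))

theorem om_smooth : ContDiffOn ℝ ∞ (fun p : W × ℝ => pb (GG v₁ ι) (FE.psi n a Pi o) p -
    pb (fun p => sg Pi v₀ v₁ (Pi (GG v₁ ι p))) (FE.psi n a Pi o) p) ({0}ᶜ ×ˢ univ) := by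
  rintro p ⟨hp, -⟩
  refine ContDiffAt.contDiffWithinAt (ContDiffAt.sub ?_ ?_)
  · exact psi_pb_smooth hs a (GG_smooth v₁ ι).contDiffAt (GG_ne h2 ι hι (Or.inl hp))
  · exact psi_pb_smooth hs a (SG_smooth h2 ι hι hp)
      (h2.sg_ne (GG_pln h2 ι hι hp) (GG_pl h2 ι hι hp))

theorem om_closed {p : W × ℝ} (hp : p.1 ≠ 0) :
    extd (fun p : W × ℝ => pb (GG v₁ ι) (FE.psi n a Pi o) p -
    pb (fun p => sg Pi v₀ v₁ (Pi (GG v₁ ι p))) (FE.psi n a Pi o) p) p = 0 := by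
  have e1 := GG_ne h2 ι hι (p := p) (Or.inl hp)
  have e2 := h2.sg_ne (GG_pln h2 ι hι hp) (GG_pl h2 ι hι hp)
  have e3 := SG_smooth h2 ι hι hp
  rw [extd_sub ((psi_pb_smooth hs a (GG_smooth v₁ ι).contDiffAt e1).differentiableAt (by simp))
    ((psi_pb_smooth hs a e3 e2).differentiableAt (by simp)),
    extd_pb_psi hs a (GG_smooth v₁ ι).contDiffAt e1, extd_pb_psi hs a e3 e2, sub_eq_zero]
  refine hs.pb_extd_rel a ((GG_smooth v₁ ι).differentiable (by simp) p)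
    (e3.differentiableAt (by simp)) e1 e2 ?_
  have h3 : ∀ᶠ q : W × ℝ in 𝓝 p, q.1 ≠ 0 :=
    continuous_fst.continuousAt.eventually (isOpen_ne.mem_nhds hp)
  filter_upwards [h3] with q hq
  exact h2.sg_mem (GG_pln h2 ι hι hq)

omit h2 hι in
theorem aug_psi {u : T} (hu : u ≠ 0) : aug (FE.psi n a Pi o u) = 0 := by
  have h1 := congrArg aug (hs.inv_psi a hu)
  rw [map_neg] at h1
  have h3 : aug (inv (FE.psi n a Pi o u)) = aug (FE.psi n a Pi o u) := aug_inv _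
  rw [h3] at h1
  linarith

end Om

/-! ### the cutoff -/

/-- a smooth function of the plane `A`: zero near `P v₁`, one far away -/
def cc (δ : ℝ) (v₁ : T) (A : T →L[ℝ] T) : ℝ :=
  Real.smoothTransition (3 * ‖A v₁ - v₁‖ ^ 2 / δ - 1)

theorem cc_smooth (δ : ℝ) (v₁ : T) : ContDiff ℝ ∞ (cc δ v₁) := by
  have h1 : ContDiff ℝ ∞ fun A : T →L[ℝ] T => A v₁ - v₁ :=
    (contDiff_id.clm_apply contDiff_const).sub contDiff_const
  exact Real.smoothTransition.contDiff.comp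
    (((contDiff_const.mul (h1.norm_sq ℝ)).div_const δ).sub contDiff_const)

theorem cc_zero {δ : ℝ} (hδ : 0 < δ) {v₁ : T} {A : T →L[ℝ] T} (h : 3 * ‖A v₁ - v₁‖ ^ 2 ≤ δ) :
    cc δ v₁ A = 0 := by
  refine Real.smoothTransition.zero_of_nonpos ?_
  have : 3 * ‖A v₁ - v₁‖ ^ 2 / δ ≤ 1 := (div_le_one hδ).2 h
  linarith

theorem cc_one {δ : ℝ} (hδ : 0 < δ) {v₁ : T} {A : T →L[ℝ] T} (h : 2 * δ ≤ 3 * ‖A v₁ - v₁‖ ^ 2) :
    cc δ v₁ A = 1 := by
  refine Real.smoothTransition.one_of_one_le ?_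
  have : 2 ≤ 3 * ‖A v₁ - v₁‖ ^ 2 / δ := (le_div_iff₀ hδ).2 h
  linarith

theorem cc_near_zero {δ : ℝ} (hδ : 0 < δ) {v₁ : T} {A : T →L[ℝ] T} (h : A v₁ = v₁) :
    ∀ᶠ B in 𝓝 A, cc δ v₁ B = 0 := by
  have h1 : Continuous fun B : T →L[ℝ] T => 3 * ‖B v₁ - v₁‖ ^ 2 := by fun_prop
  have h2 : 3 * ‖A v₁ - v₁‖ ^ 2 < δ := by
    rw [h, sub_self, norm_zero]
    simpa using hδ
  filter_upwards [h1.continuousAt.eventually (gt_mem_nhds h2)] with B hB
  exact cc_zero hδ (le_of_lt hB)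

theorem cc_near_one {δ : ℝ} (hδ : 0 < δ) {v₁ : T} {A : T →L[ℝ] T} (h : δ ≤ ‖A v₁ - v₁‖ ^ 2) :
    ∀ᶠ B in 𝓝 A, cc δ v₁ B = 1 := by
  have h1 : Continuous fun B : T →L[ℝ] T => 3 * ‖B v₁ - v₁‖ ^ 2 := by fun_prop
  have h2 : 2 * δ < 3 * ‖A v₁ - v₁‖ ^ 2 := by linarith
  filter_upwards [h1.continuousAt.eventually (lt_mem_nhds h2)] with B hB
  exact cc_one hδ (le_of_lt hB)

section Alpha

variable (hs : FE.OS n Pi o) (h2 : Two (2 * n + 2) Pi v₀ v₁) (ι : W →ₗᵢ[ℝ] T)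
  (hι : ∀ w, Pi v₀ (ι w) = ι w) (a : ℝ)

/-- the primitive of the flat form -/
def alp (n : ℕ) (Pi : T → T →L[ℝ] T) (o : T → Lam T) (v₀ v₁ : T) (a δ : ℝ)
    (ι : W →ₗᵢ[ℝ] T) (w : W) : Lam W :=
  pb (fun w => ι w + v₁) (FE.psi n a Pi o) w -
    cc δ v₁ (Pi (ι w + v₁)) • pb (fun w => sg Pi v₀ v₁ (Pi (ι w + v₁))) (FE.psi n a Pi o) w

theorem aff_smooth : ContDiff ℝ ∞ fun w : W => ι w + v₁ :=
  ι.toContinuousLinearMap.contDiff.add contDiff_const

include h2 hι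

theorem aff_ne (w : W) : ι w + v₁ ≠ 0 := by
  have := GG_ne h2 ι hι (p := (w, 1)) (Or.inr one_ne_zero)
  simpa [GG] using this

theorem aff_pln (w : W) : Pln Pi (Pi (ι w + v₁)) := ⟨_, aff_ne h2 ι hι w, rfl⟩

theorem Paff_smooth (w : W) : ContDiffAt ℝ ∞ (fun w => Pi (ι w + v₁)) w :=
  (h2.sp.smooth _ (aff_ne h2 ι hι w)).comp w (aff_smooth ι).contDiffAt

theorem Paff_ne₁ {w : W} (hw : w ≠ 0) : Pi (ι w + v₁) ≠ Pi v₁ := by
  have := GG_pl h2 ι hι (p := (w, 1)) hw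
  simpa [GG] using this

theorem Saff_smooth {w : W} (hw : w ≠ 0) :
    ContDiffAt ℝ ∞ (fun w => sg Pi v₀ v₁ (Pi (ι w + v₁))) w :=
  ContDiffAt.comp w (g := sg Pi v₀ v₁) (f := fun w => Pi (ι w + v₁))
    (h2.sg_smooth (aff_pln h2 ι hι w) (Paff_ne₁ h2 ι hι hw)) (Paff_smooth h2 ι hι w)

theorem cc_aff_zero {δ : ℝ} (hδ : 0 < δ) : ∀ᶠ w : W in 𝓝 0, cc δ v₁ (Pi (ι w + v₁)) = 0 := by
  refine (Paff_smooth h2 ι hι 0).continuousAt.eventually (cc_near_zero hδ ?_)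
  change Pi (ι 0 + v₁) v₁ = v₁
  rw [map_zero, zero_add, h2.sp.self _ h2.z₁]

theorem cc_aff_one {δ ε : ℝ} (hδ : 0 < δ)
    (hδε : ∀ w : W, ε ≤ ‖w‖ → δ ≤ ‖Pi (ι w + v₁) v₁ - v₁‖ ^ 2) {w : W} (hw : ε ≤ ‖w‖) :
    ∀ᶠ w : W in 𝓝 w, cc δ v₁ (Pi (ι w + v₁)) = 1 :=
  (Paff_smooth h2 ι hι w).continuousAt.eventually (cc_near_one hδ (hδε w hw))

include hs

theorem alp_smooth {δ : ℝ} (hδ : 0 < δ) : ContDiff ℝ ∞ (alp n Pi o v₀ v₁ a δ ι) := by
  refine contDiff_iff_contDiffAt.2 fun w => ?_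
  have e1 := psi_pb_smooth hs a (aff_smooth ι (v₁ := v₁)).contDiffAt (aff_ne h2 ι hι w)
  refine e1.sub ?_
  rcases eq_or_ne w 0 with rfl | hw
  · refine (contDiffAt_const (c := (0 : Lam W))).congr_of_eventuallyEq ?_
    filter_upwards [cc_aff_zero h2 ι hι hδ] with z hz
    rw [hz, zero_smul]
  · exact ((cc_smooth δ v₁).contDiffAt.comp w (Paff_smooth h2 ι hι w)).smul
      (psi_pb_smooth hs a (Saff_smooth h2 ι hι hw)
        (h2.sg_ne (aff_pln h2 ι hι w) (Paff_ne₁ h2 ι hι hw)))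

theorem alp_far {δ ε : ℝ} (hδ : 0 < δ)
    (hδε : ∀ w : W, ε ≤ ‖w‖ → δ ≤ ‖Pi (ι w + v₁) v₁ - v₁‖ ^ 2) {w : W} (hw : ε ≤ ‖w‖) :
    alp n Pi o v₀ v₁ a δ ι =ᶠ[𝓝 w] fun w => pb (fun w => ι w + v₁) (FE.psi n a Pi o) w -
      pb (fun w => sg Pi v₀ v₁ (Pi (ι w + v₁))) (FE.psi n a Pi o) w := by
  filter_upwards [cc_aff_one h2 ι hι hδ hδε hw] with z hz
  rw [alp, hz, one_smul]

theorem extd_alp_far {δ ε : ℝ} (hε : 0 < ε) (hδ : 0 < δ)
    (hδε : ∀ w : W, ε ≤ ‖w‖ → δ ≤ ‖Pi (ι w + v₁) v₁ - v₁‖ ^ 2) {w : W} (hw : ε ≤ ‖w‖) :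
    extd (alp n Pi o v₀ v₁ a δ ι) w = 0 := by
  have hw0 : w ≠ 0 := by
    rintro rfl
    rw [norm_zero] at hw
    linarith
  have e1 := aff_ne h2 ι hι w
  have e2 := h2.sg_ne (aff_pln h2 ι hι w) (Paff_ne₁ h2 ι hι hw0)
  have e3 := Saff_smooth h2 ι hι hw0
  have e4 := (aff_smooth ι (v₁ := v₁)).contDiffAt (x := w)
  rw [extd_congr (alp_far hs h2 ι hι a hδ hδε hw),
    extd_sub ((psi_pb_smooth hs a e4 e1).differentiableAt (by simp))
    ((psi_pb_smooth hs a e3 e2).differentiableAt (by simp)),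
    extd_pb_psi hs a e4 e1, extd_pb_psi hs a e3 e2, sub_eq_zero]
  refine hs.pb_extd_rel a (e4.differentiableAt (by simp))
    (e3.differentiableAt (by simp)) e1 e2 ?_
  exact Eventually.of_forall fun z => h2.sg_mem (aff_pln h2 ι hι z)

variable [MeasurableSpace W] [BorelSpace W]

/-- the integral of the difference of the two angular forms over the sphere -/
theorem int_beta (b : OrthonormalBasis (Fin (2 * n + 2)) ℝ W) {r : W → ℝ} {K : Set W}
    (hr : Cut r K) : ∃ s : ℝ, (s = 1 ∨ s = -1) ∧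
      ∫ y, evalForm (dR r y * (pb (fun w => ι w + v₁) (FE.psi n a Pi o) y -
        pb (fun w => sg Pi v₀ v₁ (Pi (ι w + v₁))) (FE.psi n a Pi o) y)) b =
      s * (a * ((2 * n + 1).factorial : ℝ)) *
        (((2 * n + 2 : ℕ) : ℝ) * (volume : Measure W).real (ball 0 1)) := by
  obtain ⟨s, hs1, hs2⟩ := hs.pb_lin a ι h2.z₀ hι b
  refine ⟨s, hs1, ?_⟩
  have h1 := int_dR_homotopy (volume : Measure W) b (om_smooth hs h2 ι hι a)
    (fun y hy t => om_closed hs h2 ι hι a (p := (y, t)) hy) hr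
  have hat : ∀ (t : ℝ) (y : W), y ≠ 0 → at0 (pb (GG v₁ ι) (FE.psi n a Pi o) (y, t) -
      pb (fun p => sg Pi v₀ v₁ (Pi (GG v₁ ι p))) (FE.psi n a Pi o) (y, t)) =
      pb (fun z => GG v₁ ι (z, t)) (FE.psi n a Pi o) y -
        pb (fun z => sg Pi v₀ v₁ (Pi (GG v₁ ι (z, t)))) (FE.psi n a Pi o) y := by
    intro t y hy
    rw [map_sub, at0_pb ((GG_smooth v₁ ι).differentiable (by simp) _),
      at0_pb (f := fun p => sg Pi v₀ v₁ (Pi (GG v₁ ι p)))
        ((SG_smooth h2 ι hι (p := (y, t)) hy).differentiableAt (by simp))]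
  have hg1 : ∀ z : W, GG v₁ ι (z, 1) = ι z + v₁ := fun z => by simp [GG]
  have hg0 : ∀ z : W, GG v₁ ι (z, 0) = ι z := fun z => by simp [GG]
  have hL : ∫ y, evalForm (dR r y * (pb (fun w => ι w + v₁) (FE.psi n a Pi o) y -
        pb (fun w => sg Pi v₀ v₁ (Pi (ι w + v₁))) (FE.psi n a Pi o) y)) b =
      ∫ y, evalForm (dR r y * (s * (a * ((2 * n + 1).factorial : ℝ))) • FE.std b y) b := by
    refine Eq.trans (integral_congr_ae (Eventually.of_forall fun y => ?_)) (h1.trans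
      (integral_congr_ae (Eventually.of_forall fun y => ?_)))
    · rcases eq_or_ne y 0 with rfl | hy
      · simp only [hr.dR_near.self_of_nhds, zero_mul]
      · simp only [hat 1 y hy, hg1]
    · rcases eq_or_ne y 0 with rfl | hy
      · simp only [hr.dR_near.self_of_nhds, zero_mul]
      · simp only [hat 0 y hy, hg0]
        have h3 : pb (fun z => sg Pi v₀ v₁ (Pi (ι z))) (FE.psi n a Pi o) y = 0 := by
          have h4 : (fun z => sg Pi v₀ v₁ (Pi (ι z))) =ᶠ[𝓝 y] fun _ => v₀ := by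
            filter_upwards [isOpen_ne.mem_nhds hy] with z hz
            have := SG_zero h2 ι hι hz
            rwa [hg0] at this
          rw [pb_congr _ h4, pb, fderiv_fun_const]
          change pull (0 : W →L[ℝ] T) _ = 0
          rw [Q.pull_zero, aug_psi hs a h2.z₀, map_zero]
        rw [h3, sub_zero]
        exact congrArg (fun z => evalForm (dR r y * z) b) (hs2 y hy)
  rw [hL]
  have h5 := FE.integral_std b hr
  rw [← h5, ← integral_const_mul]
  refine integral_congr_ae (Eventually.of_forall fun y => ?_)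
  change evalForm (dR r y * _ • FE.std b y) b = _ * evalForm (dR r y * FE.std b y) b
  rw [mul_smul_comm, Q.evalForm_smul]

/-- **the integral of the flat form** -/
theorem int_flat (b : OrthonormalBasis (Fin (2 * n + 2)) ℝ W) {δ ε : ℝ} (hε : 0 < ε)
    (hε1 : ε ≤ 1) (hδ : 0 < δ) (hδε : ∀ w : W, ε ≤ ‖w‖ → δ ≤ ‖Pi (ι w + v₁) v₁ - v₁‖ ^ 2) :
    ∃ s : ℝ, (s = 1 ∨ s = -1) ∧
      ∫ y, evalForm (extd (alp n Pi o v₀ v₁ a δ ι) y) b =
      s * (a * ((2 * n + 1).factorial : ℝ)) *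
        (((2 * n + 2 : ℕ) : ℝ) * (volume : Measure W).real (ball 0 1)) := by
  obtain ⟨s, hs1, hs2⟩ := int_beta hs h2 ι hι a b (cut_rst (E := W))
  refine ⟨s, hs1, ?_⟩
  rw [← hs2]
  have hα := alp_smooth hs h2 ι hι a hδ
  set α := alp n Pi o v₀ v₁ a δ ι with hαd
  let w : W → Lam W := fun x => (1 - rst x) • α x
  have hr : ContDiff ℝ ∞ (rst : W → ℝ) := contDiff_rst
  have hws : ContDiff ℝ ∞ w := (contDiff_const.sub hr).smul hα
  have hwc : HasCompactSupport w := HasCompactSupport.intro (isCompact_closedBall (0 : W) 3)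
    fun x hx => by
      simp only [w, (cut_rst (E := W)).one x hx, sub_self, zero_smul]
  have hwI := integral_evalForm_extd volume b (hws.of_le (by simp)) hwc
  have hpt : ∀ x, evalForm (extd w x) b = evalForm (extd α x) b -
      evalForm (dR rst x * (pb (fun w => ι w + v₁) (FE.psi n a Pi o) x -
        pb (fun w => sg Pi v₀ v₁ (Pi (ι w + v₁))) (FE.psi n a Pi o) x)) b := by
    intro x
    rcases lt_or_ge ‖x‖ 2 with hx | hx
    · have h1 : w =ᶠ[𝓝 x] α := by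
        filter_upwards [rst_zero hx] with y hy
        simp only [w, hy, sub_zero, one_smul]
      rw [extd_congr h1, dR_rst_zero hx, zero_mul, Q.evalForm_zero, sub_zero]
    · have hx' : ε ≤ ‖x‖ := by linarith
      have h3 := extd_alp_far hs h2 ι hι a hε hδ hδε hx'
      have h4 := (alp_far hs h2 ι hι a hδ hδε hx').self_of_nhds
      have e1 : DifferentiableAt ℝ (fun x : W => 1 - rst x) x :=
        (differentiableAt_const _).sub (hr.differentiable (by simp) x)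
      have h5 : fderiv ℝ (fun x : W => 1 - rst x) x = -fderiv ℝ rst x := by
        rw [fderiv_const_sub]
      rw [← hαd] at h3 h4
      dsimp only at h4
      change evalForm (extd (fun x => (1 - rst x) • α x) x) b = _
      rw [extd_smul e1 (hα.differentiable (by simp) x), h3, smul_zero, add_zero,
        Q.evalForm_zero, h5, ← h4, map_neg, neg_mul, ← neg_one_smul ℝ, Q.evalForm_smul, dR]
      ring
  simp only [hpt] at hwI
  have hc0 : Continuous fun y => extd α y :=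
    dLin.continuous.comp (hα.continuous_fderiv (by simp))
  have i1 : Integrable (fun x => evalForm (extd α x) b) volume := by
    refine (evalL b).integrable_comp (hc0.integrable_of_hasCompactSupport ?_)
    refine HasCompactSupport.intro (isCompact_closedBall (0 : W) ε) fun x hx => ?_
    rw [mem_closedBall_zero_iff, not_le] at hx
    exact extd_alp_far hs h2 ι hι a hε hδ hδε hx.le
  have i2 : Integrable (fun x => evalForm (dR rst x *
      (pb (fun w => ι w + v₁) (FE.psi n a Pi o) x -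
        pb (fun w => sg Pi v₀ v₁ (Pi (ι w + v₁))) (FE.psi n a Pi o) x)) b) volume := by
    refine integrable_dR volume b (fun y hy => ContDiffAt.contDiffWithinAt ?_) cut_rst
    exact (psi_pb_smooth hs a (aff_smooth ι (v₁ := v₁)).contDiffAt (aff_ne h2 ι hι y)).sub
      (psi_pb_smooth hs a (Saff_smooth h2 ι hι hy)
        (h2.sg_ne (aff_pln h2 ι hι y) (Paff_ne₁ h2 ι hι hy)))
  rw [integral_sub i1 i2, sub_eq_zero] at hwI
  exact hwI

end Alpha

end Vale.Agent.P231.S3M2
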