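import Vale.Agent.P231.S3M2.Flat
import Vale.Agent.P231.Co.On

/-!
# P231, stage 3, block (M2) (4): forms `c • s^* w` where `s` is only defined on the support of `c`;
the splitting of the form of a family of planes
-/

set_option linter.unusedSectionVars false
set_option linter.unusedVariables false

open Module MeasureTheory Set Metric Filter
open scoped ContDiff Topology

noncomputable section

namespace Vale.Agent.P231.S3M2

open Fm

section CutForm

variable {X : Type*} {dX : Dif X}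
variable {T : Type*} [NormedAddCommGroup T] [NormedSpace ℝ T] [FiniteDimensional ℝ T]

/-- `s` is smooth and nonzero where `c` is not locally zero -/
structure CutOK (dX : Dif X) (c : X → ℝ) (s : X → T) : Prop where
  csm : ∀ {V : Type} [NormedAddCommGroup V] [NormedSpace ℝ V] [FiniteDimensional ℝ V]
    {u : V → X} {x : V}, dX.At u x → ContDiffAt ℝ ∞ (fun y => c (u y)) x
  ssm : ∀ {V : Type} [NormedAddCommGroup V] [NormedSpace ℝ V] [FiniteDimensional ℝ V]
    {u : V → X} {x : V}, dX.At u x → (∀ᶠ y in 𝓝 x, c (u y) = 0) ∨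
      (ContDiffAt ℝ ∞ (fun y => s (u y)) x ∧ s (u x) ≠ 0)

variable {c : X → ℝ} {s : X → T}

/-- the form `c • s^* w` -/
def cutForm (h : CutOK dX c s) {w : T → Lam T} (hw : ∀ z ≠ 0, ContDiffAt ℝ ∞ w z) : Form dX :=
  Form.mk' (fun u x => c (u x) • pb (fun y => s (u y)) w x)
    (by
      intro V _ _ _ u x hu
      rcases h.ssm hu with h1 | ⟨h1, h2⟩
      · refine (contDiffAt_const (c := (0 : Lam V))).congr_of_eventuallyEq ?_
        filter_upwards [h1] with y hy
        rw [hy, zero_smul]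
      · exact (h.csm hu).smul (contDiffAt_pb (m := ∞) (n := ∞) h1 (hw _ h2) (by simp)))
    (by
      intro V V' _ _ _ _ _ _ u g x hu hg
      rcases h.ssm hu with h1 | ⟨h1, h2⟩
      · have h3 := h1.self_of_nhds
        change c (u (g x)) • _ = _
        rw [h3, zero_smul, zero_smul, map_zero]
      · rw [map_smul]
        change c (u (g x)) • _ = _
        congr 1
        exact pb_comp (f := g) (g := fun y => s (u y)) w (h1.differentiableAt (by simp))
          hg.differentiableAt)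
    (by
      intro V _ _ _ u v x hu huv
      have h1 : (fun y => s (u y)) =ᶠ[𝓝 x] fun y => s (v y) := by
        filter_upwards [huv] with y hy
        rw [hy]
      rw [huv.self_of_nhds, pb_congr w h1])

variable {V : Type} [NormedAddCommGroup V] [NormedSpace ℝ V] [FiniteDimensional ℝ V]

theorem cutForm_val (h : CutOK dX c s) {w : T → Lam T} (hw : ∀ z ≠ 0, ContDiffAt ℝ ∞ w z)
    {u : V → X} {x : V} (hu : dX.At u x) :
    (cutForm h hw).val u x = c (u x) • pb (fun y => s (u y)) w x :=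
  Form.mk'_val (D := dX) hu

theorem cutForm_d (h : CutOK dX c s) {w : T → Lam T} (hw : ∀ z ≠ 0, ContDiffAt ℝ ∞ w z)
    {u : V → X} {x : V} (hu : dX.At u x) :
    (cutForm h hw).d.val u x = extd (fun y => c (u y) • pb (fun y => s (u y)) w y) x := by
  rw [Form.d_val _ hu]
  refine extd_congr ?_
  filter_upwards [dX.open' hu] with y hy
  exact cutForm_val h hw hy

end CutForm

section Split

variable {T : Type*} [NormedAddCommGroup T] [InnerProductSpace ℝ T] [FiniteDimensional ℝ T]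
variable {n : ℕ} {Pi : T → T →L[ℝ] T} {o : T → Lam T} {v₀ v₁ : T}
variable {W : Type*} [NormedAddCommGroup W] [InnerProductSpace ℝ W] [FiniteDimensional ℝ W]
variable {V : Type*} [NormedAddCommGroup V] [NormedSpace ℝ V] [FiniteDimensional ℝ V]

variable (hs : FE.OS n Pi o) (h2 : Two (2 * n + 2) Pi v₀ v₁) (ι : W →ₗᵢ[ℝ] T)
  (hι : ∀ w, Pi v₀ (ι w) = ι w) (a : ℝ) {R : V → T →L[ℝ] T} {x : V} {f : V → T}
  (hR : Sm R x) (hP : ∀ᶠ y in 𝓝 x, Pln Pi (R y)) (hf : ContDiffAt ℝ ∞ f x) (hf0 : f x ≠ 0)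
  (hRf : ∀ᶠ y in 𝓝 x, R y (f y) = f y)

include hs hP hf hf0 hRf in
/-- all sections of the planes give the same form -/
theorem pb_extd_eq {g : V → T} (hg : ContDiffAt ℝ ∞ g x) (hg0 : g x ≠ 0)
    (hRg : ∀ᶠ y in 𝓝 x, R y (g y) = g y) :
    pb f (extd (FE.psi n a Pi o)) x = pb g (extd (FE.psi n a Pi o)) x := by
  refine hs.pb_extd_rel a (hf.differentiableAt (by simp)) (hg.differentiableAt (by simp)) hf0
    hg0 ?_
  have h1 : ∀ᶠ y in 𝓝 x, f y ≠ 0 := hf.continuousAt.eventually (isOpen_ne.mem_nhds hf0)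
  filter_upwards [hP, hRf, hRg, h1] with y k1 k2 k3 k4
  rw [← k1.eq hs.sp k4 k2, k3]

include hs h2 hR hP hf hf0 hRf in
/-- far from `P v₁` the form is exact -/
theorem split_far {δ : ℝ} (hδ : 0 < δ) (hne : R x ≠ Pi v₁)
    (hx : δ ≤ ‖R x v₁ - v₁‖ ^ 2) :
    pb f (extd (FE.psi n a Pi o)) x =
      extd (fun y => cc δ v₁ (R y) • pb (fun y => sg Pi v₀ v₁ (R y)) (FE.psi n a Pi o) y) x := by
  have e1 : ContDiffAt ℝ ∞ (fun y => sg Pi v₀ v₁ (R y)) x :=
    ContDiffAt.comp x (g := sg Pi v₀ v₁) (h2.sg_smooth hP.self_of_nhds hne) hR.contDiffAt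
  have e2 := h2.sg_ne hP.self_of_nhds hne
  have h3 : (fun y => cc δ v₁ (R y) • pb (fun y => sg Pi v₀ v₁ (R y)) (FE.psi n a Pi o) y) =ᶠ[𝓝 x]
      pb (fun y => sg Pi v₀ v₁ (R y)) (FE.psi n a Pi o) := by
    filter_upwards [hR.continuousAt.eventually (cc_near_one hδ hx)] with y hy
    rw [hy, one_smul]
  rw [extd_congr h3, extd_pb_psi hs a e1 e2]
  exact pb_extd_eq hs a hP hf hf0 hRf e1 e2 (hP.mono fun y hy => h2.sg_mem hy)

/-- the coordinate of a plane in the graph chart -/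
def gc (Pi : T → T →L[ℝ] T) (v₀ v₁ : T) (π : T →L[ℝ] W) (A : T →L[ℝ] T) : W :=
  π (sg Pi v₁ v₀ A - v₁)

include h2 in
theorem gc_smooth (π : T →L[ℝ] W) {A : T →L[ℝ] T} (hA : Pln Pi A) (hne : A ≠ Pi v₀) :
    ContDiffAt ℝ ∞ (gc Pi v₀ v₁ π) A :=
  π.contDiff.contDiffAt.comp A ((h2.symm.sg_smooth hA hne).sub contDiffAt_const)

include h2 in
theorem gc_eq {ι : W →ₗᵢ[ℝ] T} {π : T →L[ℝ] W} (hπ : ∀ z, ι (π z) = Pi v₀ z)
    {A : T →L[ℝ] T} (hA : Pln Pi A) (hne : A ≠ Pi v₀) :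
    ι (gc Pi v₀ v₁ π A) + v₁ = sg Pi v₁ v₀ A := by
  have h3 := h2.symm.sg_sub hA hne
  rw [gc, hπ, ← neg_sub, map_neg, h3]
  abel

include h2 in
theorem Pi_gc {ι : W →ₗᵢ[ℝ] T} {π : T →L[ℝ] W} (hπ : ∀ z, ι (π z) = Pi v₀ z)
    {A : T →L[ℝ] T} (hA : Pln Pi A) (hne : A ≠ Pi v₀) :
    Pi (ι (gc Pi v₀ v₁ π A) + v₁) = A := by
  rw [gc_eq h2 hπ hA hne, h2.symm.Pi_sg hA hne]

include h2 hι in
theorem gc_aff {π : T →L[ℝ] W} (hπ : ∀ z, ι (π z) = Pi v₀ z) (w : W) :
    Pi (ι w + v₁) ≠ Pi v₀ ∧ gc Pi v₀ v₁ π (Pi (ι w + v₁)) = w := by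
  obtain ⟨k1, k2, k3⟩ := h2.symm.sg_graph (hι w)
  rw [add_comm] at k2 k3
  refine ⟨k2, ι.injective ?_⟩
  rw [gc, hπ, k3, add_sub_cancel_right, hι]

include hs h2 hι hR hP hf hf0 hRf in
/-- **the form of a family of planes in the graph chart** -/
theorem split_near {π : T →L[ℝ] W} (hπ : ∀ z, ι (π z) = Pi v₀ z) {δ : ℝ} (hδ : 0 < δ)
    (hne : R x ≠ Pi v₀) : pb f (extd (FE.psi n a Pi o)) x =
      extd (fun y => cc δ v₁ (R y) • pb (fun y => sg Pi v₀ v₁ (R y)) (FE.psi n a Pi o) y) x +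
        pb (fun y => gc Pi v₀ v₁ π (R y)) (extd (alp n Pi o v₀ v₁ a δ ι)) x := by
  have hα := alp_smooth hs h2 ι hι a hδ
  have hne' : ∀ᶠ y in 𝓝 x, R y ≠ Pi v₀ := hR.continuousAt.eventually (isOpen_ne.mem_nhds hne)
  let u : V → W := fun y => gc Pi v₀ v₁ π (R y)
  have hu : ∀ y, ContDiffAt ℝ ∞ R y → Pln Pi (R y) → R y ≠ Pi v₀ → ContDiffAt ℝ ∞ u y := by
    intro y k1 k2 k3
    exact ContDiffAt.comp y (g := gc Pi v₀ v₁ π) (gc_smooth h2 π k2 k3) k1
  have hux := hu x hR.contDiffAt hP.self_of_nhds hne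
  let s₁ : V → T := fun y => sg Pi v₁ v₀ (R y)
  have e1 : ContDiffAt ℝ ∞ s₁ x :=
    ContDiffAt.comp x (g := sg Pi v₁ v₀) (h2.symm.sg_smooth hP.self_of_nhds hne) hR.contDiffAt
  have e2 : s₁ x ≠ 0 := h2.symm.sg_ne hP.self_of_nhds hne
  let θ : V → Lam V := fun y => cc δ v₁ (R y) • pb (fun y => sg Pi v₀ v₁ (R y))
    (FE.psi n a Pi o) y
  have hθ : DifferentiableAt ℝ θ x := by
    by_cases h1 : R x = Pi v₁
    · have h3 : θ =ᶠ[𝓝 x] fun _ => 0 := by
        have h4 : R x v₁ = v₁ := by rw [h1, h2.sp.self _ h2.z₁]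
        filter_upwards [hR.continuousAt.eventually (cc_near_zero hδ h4)] with y hy
        simp only [θ, hy, zero_smul]
      exact (differentiableAt_const (0 : Lam V)).congr_of_eventuallyEq h3
    · have e3 : ContDiffAt ℝ ∞ (fun y => sg Pi v₀ v₁ (R y)) x :=
        ContDiffAt.comp x (g := sg Pi v₀ v₁) (h2.sg_smooth hP.self_of_nhds h1) hR.contDiffAt
      exact (((cc_smooth δ v₁).contDiffAt.comp x hR.contDiffAt).smul
        (psi_pb_smooth hs a e3 (h2.sg_ne hP.self_of_nhds h1))).differentiableAt (by simp)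
  have hkey : pb u (alp n Pi o v₀ v₁ a δ ι) =ᶠ[𝓝 x]
      fun y => pb s₁ (FE.psi n a Pi o) y - θ y := by
    filter_upwards [hR, hP, hR.eventually, hP.eventually_nhds, hne', hne'.eventually_nhds]
      with y k1 k2 k3 k4 k5 k6
    have k7 := hu y k1 k2 k5
    have k8 : DifferentiableAt ℝ u y := k7.differentiableAt (by simp)
    have k9 : pb u (fun w => pb (fun w => ι w + v₁) (FE.psi n a Pi o) w) y =
        pb s₁ (FE.psi n a Pi o) y := by
      refine Eq.trans (pb_comp (g := fun w => ι w + v₁) (f := u) (FE.psi n a Pi o)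
        ((aff_smooth ι).differentiable (by simp) _) k8).symm (pb_congr _ ?_)
      filter_upwards [k4, k6] with z hz1 hz2
      exact gc_eq h2 hπ hz1 hz2
    have k10 : Pi (ι (u y) + v₁) = R y := Pi_gc h2 hπ k2 k5
    have k11 : pb u (fun w => cc δ v₁ (Pi (ι w + v₁)) •
        pb (fun w => sg Pi v₀ v₁ (Pi (ι w + v₁))) (FE.psi n a Pi o) w) y = θ y := by
      change pull (fderiv ℝ u y) (cc δ v₁ (Pi (ι (u y) + v₁)) • _) = _
      rw [map_smul, k10]
      change _ = cc δ v₁ (R y) • _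
      by_cases k12 : R y = Pi v₁
      · have h4 : R y v₁ = v₁ := by rw [k12, h2.sp.self _ h2.z₁]
        have h5 : cc δ v₁ (R y) = 0 := (cc_near_zero hδ h4).self_of_nhds
        rw [h5, zero_smul, zero_smul]
      · congr 1
        have h5 : u y ≠ 0 := by
          intro h0
          rw [h0, map_zero, zero_add] at k10
          exact k12 k10.symm
        refine Eq.trans (pb_comp (g := fun w => sg Pi v₀ v₁ (Pi (ι w + v₁))) (f := u)
          (FE.psi n a Pi o) ((Saff_smooth h2 ι hι h5).differentiableAt (by simp)) k8).symm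
          (pb_congr _ ?_)
        filter_upwards [k4, k6] with z hz1 hz2
        change sg Pi v₀ v₁ (Pi (ι (gc Pi v₀ v₁ π (R z)) + v₁)) = _
        rw [Pi_gc h2 hπ hz1 hz2]
    rw [← k9, ← k11]
    exact map_sub (pull (fderiv ℝ u y)) _ _
  have h3 : pb u (extd (alp n Pi o v₀ v₁ a δ ι)) x = extd (pb u (alp n Pi o v₀ v₁ a δ ι)) x :=
    (extd_pb (hux.of_le two_le_inf) (hα.differentiable (by simp) _)).symm
  change _ = extd θ x + pb u (extd (alp n Pi o v₀ v₁ a δ ι)) x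
  rw [h3, extd_congr hkey, extd_sub ((psi_pb_smooth hs a e1 e2).differentiableAt (by simp)) hθ,
    add_sub_cancel, extd_pb_psi hs a e1 e2]
  exact pb_extd_eq hs a hP hf hf0 hRf e1 e2 (hP.mono fun y hy => h2.symm.sg_mem hy)

end Split

end Vale.Agent.P231.S3M2
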