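import Vale.Agent.P231.S3M2.Pj

/-!
# P231, stage 3, block (M2) (3): general position
-/

set_option linter.unusedSectionVars false
set_option linter.unusedVariables false

open Module MeasureTheory Set Metric Filter
open scoped ContDiff Topology

noncomputable section

namespace Vale.Agent.P231.S3M2

variable {T : Type*} [NormedAddCommGroup T] [InnerProductSpace ℝ T] [FiniteDimensional ℝ T]
variable {m : ℕ} {Pi : T → T →L[ℝ] T}
variable {V : Type*} [NormedAddCommGroup V] [NormedSpace ℝ V] [FiniteDimensional ℝ V]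
  [MeasurableSpace V] [BorelSpace V]

/-- the product map sends a null set of parameters to a null set -/
theorem null_prod [MeasurableSpace T] [BorelSpace T] (ν : Measure T) [ν.IsAddHaarMeasure]
    (μ : Measure V) [μ.IsAddHaarMeasure] {W : Type*} [NormedAddCommGroup W] [NormedSpace ℝ W]
    [FiniteDimensional ℝ W] (hd : finrank ℝ V + finrank ℝ W = finrank ℝ T)
    {f : V × W → T} (hf : Differentiable ℝ f) {S : Set V} (hS : μ S = 0) :
    ν (f '' (S ×ˢ univ)) = 0 := by
  let _ : MeasurableSpace W := borel W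
  have : BorelSpace W := ⟨rfl⟩
  let μ₀ : Measure W := (Module.finBasis ℝ W).addHaar
  have hd' : finrank ℝ (V × W) = finrank ℝ T := by rw [finrank_prod, hd]
  let L : (V × W) ≃L[ℝ] T := ContinuousLinearEquiv.ofFinrankEq hd'
  have h1 : (μ.prod μ₀) (S ×ˢ univ) = 0 := by
    rw [Measure.prod_prod, hS, zero_mul]
  let ν' : Measure T := (μ.prod μ₀).map L
  have : ν'.IsAddHaarMeasure := ContinuousLinearEquiv.isAddHaarMeasure_map L _
  have h2 : ν' (L '' (S ×ˢ univ)) = 0 := by
    have h3 : MeasurableEmbedding (L : V × W → T) := L.toHomeomorph.measurableEmbedding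
    rw [h3.map_apply, preimage_image_eq _ L.injective]
    exact h1
  have h3 : ν (L '' (S ×ˢ univ)) = 0 :=
    Measure.absolutelyContinuous_isAddHaarMeasure ν ν' h2
  have h4 := addHaar_image_eq_zero_of_differentiableOn_of_addHaar_eq_zero ν
    (f := fun z => f (L.symm z)) (s := L '' (S ×ˢ univ))
    (hf.comp L.symm.differentiable).differentiableOn h3
  have h5 : (fun z => f (L.symm z)) '' (L '' (S ×ˢ univ)) = f '' (S ×ˢ univ) := by
    rw [image_image]
    simp only [ContinuousLinearEquiv.symm_apply_apply]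
  rwa [h5] at h4

/-- **general position** -/
theorem exists_generic (hs : FE.Spread m Pi) (hm : 0 < m) (hT : finrank ℝ T = 2 * m)
    (hV : finrank ℝ V = m)
    {R : V → T →L[ℝ] T} (hR : ContDiff ℝ ∞ R) (hP : ∀ x, Pln Pi (R x)) {S : Set V}
    (hSc : IsCompact S) (μ : Measure V) [μ.IsAddHaarMeasure] (hS : μ S = 0) :
    ∃ v : T, v ≠ 0 ∧ ∀ x ∈ S, R x v ≠ v := by
  let _ : MeasurableSpace T := borel T
  have : BorelSpace T := ⟨rfl⟩
  have : Nontrivial T := nontrivial_of_finrank_pos (R := ℝ) (by omega)
  let ν : Measure T := (Module.finBasis ℝ T).addHaar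
  have hnull : ν {v | ∃ x ∈ S, R x v = v} = 0 := by
    refine hSc.induction_on (p := fun s => ν {v | ∃ x ∈ s, R x v = v} = 0) ?_ ?_ ?_ ?_
    · simp
    · intro s t hst ht
      refine measure_mono_null ?_ ht
      rintro v ⟨x, hx, hv⟩
      exact ⟨x, hst hx, hv⟩
    · intro s t h1 h2
      refine measure_mono_null (fun v hv => ?_) (measure_union_null h1 h2)
      obtain ⟨x, hx | hx, hv⟩ := hv
      · exact Or.inl ⟨x, hx, hv⟩
      · exact Or.inr ⟨x, hx, hv⟩
    · intro x₀ _
      let Q := R x₀
      let W := LinearMap.range (Q : T →ₗ[ℝ] T)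
      have hQ : ∀ z, Q (Q z) = Q z := fun z => (hP x₀).idem hs z
      let U : V → T →L[ℝ] T := fun x =>
        R x * Q + (1 - R x) * (1 - Q)
      have hU0 : U x₀ = 1 := by
        ext z
        change Q (Q z) + ((z - Q z) - Q (z - Q z)) = z
        rw [map_sub, hQ]
        abel
      have hUc : Continuous U := by
        have := hR.continuous
        fun_prop
      have hN : ∀ᶠ x in 𝓝 x₀, IsUnit (U x) := by
        refine hUc.continuousAt.eventually (Units.isOpen.mem_nhds ?_)
        rw [hU0]
        exact isUnit_one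
      refine ⟨{x | IsUnit (U x)} ∩ S,
        Filter.inter_mem (mem_nhdsWithin_of_mem_nhds hN) self_mem_nhdsWithin, ?_⟩
      let f : V × W → T := fun p => R p.1 (p.2 : T)
      have hf : Differentiable ℝ f := by
        have h1 : ContDiff ℝ ∞ f :=
          (hR.comp contDiff_fst).clm_apply (W.subtypeL.contDiff.comp contDiff_snd)
        exact h1.differentiable (by simp)
      have h1 := null_prod ν μ (W := W) (by
        rw [hV, (hP x₀).rank hs, hT, two_mul]) hf hS
      refine measure_mono_null ?_ h1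
      rintro v ⟨x, ⟨hxU, hxS⟩, hv⟩
      obtain ⟨u, hu⟩ := hxU
      let z : T := (↑u⁻¹ : T →L[ℝ] T) v
      have hz : U x z = v := by
        rw [← hu]
        have h3 := congrArg (fun L : T →L[ℝ] T => L v) (u.mul_inv)
        exact h3
      refine ⟨(x, ⟨Q z, ⟨z, rfl⟩⟩), ⟨hxS, mem_univ _⟩, ?_⟩
      change R x (Q z) = v
      have h3 := congrArg (R x) hz
      rw [hv] at h3
      rw [← h3]
      change R x (Q z) = R x (R x (Q z) + ((z - Q z) - R x (z - Q z)))
      rw [map_add, map_sub, (hP x).idem hs, (hP x).idem hs, sub_self, add_zero]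
  obtain ⟨v, hv⟩ : ∃ v, v ∉ {v | ∃ x ∈ S, R x v = v} ∪ {0} := by
    by_contra h
    push Not at h
    have h1 := measure_union_null hnull (measure_singleton (μ := ν) (0 : T))
    rw [eq_univ_of_forall h] at h1
    exact (isOpen_univ.measure_pos ν univ_nonempty).ne' h1
  rw [mem_union, not_or] at hv
  exact ⟨v, hv.2, fun x hx h => hv.1 ⟨x, hx, h⟩⟩

end Vale.Agent.P231.S3M2
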