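import Vale.Agent.P231.S3M2.RM
import Vale.Agent.P231.S3M2.Null
import Vale.Agent.P231.BX.Open

/-!
# P231, stage 3, block (M2) (6): the integral of `f^* F` over a closed domain is an integral
multiple of the fibre constant
-/

set_option maxSynthPendingDepth 3
set_option linter.unusedSectionVars false
set_option linter.unusedVariables false

open Bundle Manifold Module MeasureTheory Set Metric Filter
open scoped ContDiff Manifold Topology

noncomputable section

namespace Vale.Agent.P231.S3M2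

open Fm TW BX
open Vale.Agent.P234 Vale.Agent.P231 Vale.Agent.P231.H775 Vale.Agent.P231.WE

section Lin

variable {T : Type*} [NormedAddCommGroup T] [InnerProductSpace ℝ T] [FiniteDimensional ℝ T]
variable {m n : ℕ} {Pi : T → T →L[ℝ] T} {o : T → Lam T}

/-- a vector outside of a plane -/
theorem exists_two (hs : FE.Spread m Pi) (hm : 0 < m) (hT : finrank ℝ T = 2 * m) {v₁ : T}
    (h1 : v₁ ≠ 0) : ∃ v₀ : T, Two m Pi v₀ v₁ := by
  obtain ⟨v₀, hv⟩ : ∃ v₀, Pi v₁ v₀ ≠ v₀ := by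
    by_contra h
    push Not at h
    have h2 := hs.rank v₁ h1
    have h3 : LinearMap.range (Pi v₁ : T →ₗ[ℝ] T) = ⊤ :=
      LinearMap.range_eq_top.2 fun z => ⟨z, h z⟩
    rw [h3, finrank_top, hT] at h2
    omega
  have h0 : v₀ ≠ 0 := by
    rintro rfl
    exact hv (map_zero _)
  refine ⟨v₀, hs, hT, h0, h1, fun h => hv ?_⟩
  rw [← h, hs.self _ h0]

/-- coordinates of a plane -/
theorem exists_iota (hs : FE.OS n Pi o) {v₀ : T} (h0 : v₀ ≠ 0) :
    ∃ (ι : EuclideanSpace ℝ (Fin (2 * n + 2)) →ₗᵢ[ℝ] T)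
      (pr : T →L[ℝ] EuclideanSpace ℝ (Fin (2 * n + 2))),
      (∀ w, Pi v₀ (ι w) = ι w) ∧ ∀ z, ι (pr z) = Pi v₀ z := by
  obtain ⟨g, hg, hgP, -⟩ := hs.or.frame v₀ h0
  let L : EuclideanSpace ℝ (Fin (2 * n + 2)) →ₗ[ℝ] T :=
    { toFun := fun w => ∑ a, w a • g a
      map_add' := fun w w' => by
        rw [← Finset.sum_add_distrib]
        exact Finset.sum_congr rfl fun a _ => by
          rw [PiLp.add_apply, add_smul]
      map_smul' := fun c w => by
        rw [Finset.smul_sum]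
        exact Finset.sum_congr rfl fun a _ => by
          rw [PiLp.smul_apply, smul_smul]
          rfl }
  have hL : ∀ w, ‖L w‖ = ‖w‖ := by
    intro w
    have h1 : ‖L w‖ ^ 2 = ‖w‖ ^ 2 := by
      rw [← real_inner_self_eq_norm_sq, EuclideanSpace.real_norm_sq_eq]
      change inner ℝ (∑ a, w a • g a) (∑ a, w a • g a) = _
      rw [hg.inner_sum]
      refine Finset.sum_congr rfl fun a _ => ?_
      simp [sq]
    have h2 : 0 ≤ ‖L w‖ := norm_nonneg _
    have h3 : 0 ≤ ‖w‖ := norm_nonneg _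
    nlinarith [sq_nonneg (‖L w‖ - ‖w‖)]
  let ι : EuclideanSpace ℝ (Fin (2 * n + 2)) →ₗᵢ[ℝ] T := ⟨L, hL⟩
  let P : T →ₗ[ℝ] EuclideanSpace ℝ (Fin (2 * n + 2)) :=
    { toFun := fun z => WithLp.toLp 2 fun a => inner ℝ (g a) z
      map_add' := fun z z' => by
        ext a
        exact inner_add_right _ _ _
      map_smul' := fun c z => by
        ext a
        exact inner_smul_right _ _ _ }
  refine ⟨ι, LinearMap.toContinuousLinearMap P, fun w => ?_, fun z => ?_⟩
  · change Pi v₀ (∑ a, w a • g a) = ∑ a, w a • g a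
    rw [map_sum]
    exact Finset.sum_congr rfl fun a _ => by rw [map_smul, hgP]
  · change ∑ a, (inner ℝ (g a) z : ℝ) • g a = _
    exact (hs.Pi_eq h0 hg hgP z).symm

end Lin

variable {E : Type*} [NormedAddCommGroup E] [NormedSpace ℝ E] [FiniteDimensional ℝ E]
  {M : Type*} [MetricSpace M] [ChartedSpace E M] [IsManifold 𝓘(ℝ, E) ∞ M]
  [RiemannianBundle (fun x : M => TangentSpace 𝓘(ℝ, E) x)]
  [IsContMDiffRiemannianBundle 𝓘(ℝ, E) ∞ E (fun x : M => TangentSpace 𝓘(ℝ, E) x)]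
  {e : ∀ x : M, TangentSpace 𝓘(ℝ, E) x → M}
  [CompactSpace M] [ConnectedSpace M] [IsRiemannianManifold 𝓘(ℝ, E) M]

variable {D : ℝ} {p : M} {n : ℕ}
  {Pi : TangentSpace 𝓘(ℝ, E) p → TangentSpace 𝓘(ℝ, E) p →L[ℝ] TangentSpace 𝓘(ℝ, E) p}
  {o : TangentSpace 𝓘(ℝ, E) p → Fm.Lam (TangentSpace 𝓘(ℝ, E) p)}
  {ρ : TangentSpace 𝓘(ℝ, E) p → ℝ} {r₀ : ℝ}

variable {V : Type} [NormedAddCommGroup V] [NormedSpace ℝ V] [FiniteDimensional ℝ V]
  [MeasurableSpace V] [BorelSpace V]

/-- **(M2)**: the integral of `f^* F` over a compact domain, if `f` avoids the base point of `F`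
and the integral kills the exact forms on the complement of the base point -/
theorem exists_int_JD (F : Facts e) (hD : 0 < D) (hB : InjGE e D)
    (hdiam : ∀ p q : M, dist p q ≤ D)
    (hl : ∀ x y : M, dist x y = D → finrank ℝ (Pl e D x y) = 2 * n + 2)
    (hE : finrank ℝ E = 2 * (2 * n + 2))
    (hJ : FE.LineP e D p n Pi o) (hρ : Rho e D p ρ r₀) (a : ℝ)
    (b : Basis (Fin (2 * n + 2)) ℝ V) {A : Set V} (hA : IsCompact A)
    (h0 : b.addHaar (frontier A) = 0) {f : V → M} (hf : ∀ x, (W.dM E M).At f x)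
    (hp : ∀ x, f x ≠ p)
    (hex : ∀ ν : Form ((W.dM E M).on {z | z ≠ p}), JD b A (ν.d.val f) = 0) :
    ∃ N : ℤ, JD b A ((FE.FF F hD hB hdiam hl hJ hρ a).val f) =
      (a * ((2 * n + 1).factorial : ℝ) * (((2 * n + 2 : ℕ) : ℝ) *
        (volume : Measure (EuclideanSpace ℝ (Fin (2 * n + 2)))).real (ball 0 1))) * N := by
  classical
  have hAc : IsClosed A := hA.isClosed
  have hs := hJ.os
  have hT : finrank ℝ (TangentSpace 𝓘(ℝ, E) p) = 2 * (2 * n + 2) := hE
  have hV : finrank ℝ V = 2 * n + 2 := finrank_eq_card_basis b |>.trans (Fintype.card_fin _)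
  have hat : ∀ x, ((W.dM E M).on {z | z ≠ p}).At f x := fun x =>
    ⟨hf x, Eventually.of_forall hp⟩
  have hg : ∀ x, ∃ g, Good e D p f g x := fun x =>
    exists_good F hD hB hdiam (l := 2 * n + 1) hl (hf x) (hp x)
  let R : V → TangentSpace 𝓘(ℝ, E) p →L[ℝ] TangentSpace 𝓘(ℝ, E) p :=
    fun x => RM e D p Pi (f x)
  have hRs : ∀ x, Sm R x := fun x => RM_sm hJ (hg x).choose_spec
  have hR : ContDiff ℝ ∞ R := contDiff_iff_contDiffAt.2 fun x => (hRs x).contDiffAt
  have hP : ∀ x, Pln Pi (R x) := fun x => (RM_pln hJ (hg x).choose_spec).self_of_nhds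
  -- general position
  have hfA : IsCompact (frontier A) := hA.of_isClosed_subset isClosed_frontier hAc.frontier_subset
  obtain ⟨v₁, hv₁, hgen⟩ := exists_generic hs.sp (by omega) hT hV hR hP hfA b.addHaar h0
  obtain ⟨v₀, h2⟩ := exists_two hs.sp (by omega) hT hv₁
  obtain ⟨ι, pr, hι, hpr⟩ := exists_iota hs h2.z₀
  -- the radius
  obtain ⟨ε, hε, hε1, hεf⟩ : ∃ ε : ℝ, 0 < ε ∧ ε ≤ 1 ∧ ∀ x ∈ frontier A, R x ≠ Pi v₀ →
      ε ≤ ‖gc Pi v₀ v₁ pr (R x)‖ := by
    obtain ⟨δ₁, hδ₁, hδf⟩ : ∃ δ₁ : ℝ, 0 < δ₁ ∧ ∀ x ∈ frontier A, δ₁ ≤ ‖R x v₁ - v₁‖ ^ 2 := by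
      rcases (frontier A).eq_empty_or_nonempty with he | hne
      · exact ⟨1, one_pos, fun x hx => by rw [he] at hx; exact hx.elim⟩
      · obtain ⟨x, hx, hmin⟩ := hfA.exists_isMinOn hne
          (f := fun x => ‖R x v₁ - v₁‖ ^ 2) (by
            have := hR.continuous
            fun_prop)
        refine ⟨‖R x v₁ - v₁‖ ^ 2, ?_, fun y hy => hmin hy⟩
        have : 0 < ‖R x v₁ - v₁‖ := norm_pos_iff.2 (sub_ne_zero.2 (hgen x hx))
        positivity
    have hc : ContinuousAt (fun w => ‖Pi (ι w + v₁) v₁ - v₁‖ ^ 2) 0 :=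
      (((Paff_smooth h2 ι hι 0).continuousAt.clm_apply continuousAt_const).sub
        continuousAt_const).norm.pow 2
    have h3 : ∀ᶠ w in 𝓝 (0 : EuclideanSpace ℝ (Fin (2 * n + 2))),
        ‖Pi (ι w + v₁) v₁ - v₁‖ ^ 2 < δ₁ := by
      refine hc.eventually (gt_mem_nhds ?_)
      change ‖Pi (ι 0 + v₁) v₁ - v₁‖ ^ 2 < δ₁
      rw [map_zero, zero_add, h2.sp.self _ h2.z₁, sub_self, norm_zero]
      simpa using hδ₁
    obtain ⟨ε, hε, hεs⟩ := nhds_basis_ball.mem_iff.1 h3
    refine ⟨min ε 1, lt_min hε one_pos, min_le_right _ _, fun x hx hxn => ?_⟩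
    by_contra h4
    rw [not_le] at h4
    have h5 : gc Pi v₀ v₁ pr (R x) ∈ ball (0 : EuclideanSpace ℝ (Fin (2 * n + 2))) ε := by
      rw [mem_ball_zero_iff]
      exact h4.trans_le (min_le_left _ _)
    have h6 := hεs h5
    change ‖Pi (ι (gc Pi v₀ v₁ pr (R x)) + v₁) v₁ - v₁‖ ^ 2 < δ₁ at h6
    rw [Pi_gc h2 hpr (hP x) hxn] at h6
    exact absurd (hδf x hx) (not_le.2 h6)
  obtain ⟨δ, hδ, hδε, hδ0⟩ : ∃ δ > 0, (∀ w : EuclideanSpace ℝ (Fin (2 * n + 2)), ε / 2 ≤ ‖w‖ →
      δ ≤ ‖Pi (ι w + v₁) v₁ - v₁‖ ^ 2) ∧ δ ≤ ‖Pi v₀ v₁ - v₁‖ ^ 2 := by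
    obtain ⟨δ, hδ, h3⟩ := exists_delta h2 ι hι (half_pos hε)
    have h4 : 0 < ‖Pi v₀ v₁ - v₁‖ ^ 2 := by
      have : 0 < ‖Pi v₀ v₁ - v₁‖ := norm_pos_iff.2 (sub_ne_zero.2 fun h =>
        h2.ne (h2.p₀.eq h2.sp h2.z₁ h))
      positivity
    exact ⟨min δ (‖Pi v₀ v₁ - v₁‖ ^ 2), lt_min hδ h4, fun w hw => (min_le_left _ _).trans (h3 w hw),
      min_le_right _ _⟩
  -- the flat form
  let bW : OrthonormalBasis (Fin (2 * n + 2)) ℝ (EuclideanSpace ℝ (Fin (2 * n + 2))) :=
    EuclideanSpace.basisFun (Fin (2 * n + 2)) ℝ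
  let Wf : EuclideanSpace ℝ (Fin (2 * n + 2)) → Lam (EuclideanSpace ℝ (Fin (2 * n + 2))) :=
    extd (alp n Pi o v₀ v₁ a δ ι)
  have hα := alp_smooth hs h2 ι hι a hδ
  have hWs : ContDiff ℝ ∞ Wf := contDiff_iff_contDiffAt.2 fun w =>
    contDiffAt_extd (hα.contDiffAt (x := w)) (by simp)
  have hW0 : ∀ w ∉ closedBall (0 : EuclideanSpace ℝ (Fin (2 * n + 2))) (ε / 2), Wf w = 0 := by
    intro w hw
    rw [mem_closedBall_zero_iff, not_le] at hw
    exact extd_alp_far hs h2 ι hι a (half_pos hε) hδ hδε hw.le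
  have hWc : HasCompactSupport Wf := HasCompactSupport.intro (isCompact_closedBall _ _) hW0
  have hWt : tsupport Wf ⊆ ball 0 ε := by
    refine (closure_minimal (fun w hw => ?_) isClosed_closedBall).trans
      (closedBall_subset_ball (half_lt_self hε))
    by_contra h3
    exact hw (hW0 w h3)
  obtain ⟨s, hs1, hs2⟩ := int_flat hs h2 ι hι a bW (half_pos hε) (by linarith) hδ hδε
  -- the degree
  let u : V → EuclideanSpace ℝ (Fin (2 * n + 2)) := fun x => gc Pi v₀ v₁ pr (R x)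
  let Z₀ : Set V := {x | x ∈ interior A ∧ R x ≠ Pi v₀}
  have hZo : IsOpen Z₀ := isOpen_interior.inter (isOpen_ne.preimage hR.continuous)
  have hus : ContDiffOn ℝ ∞ u Z₀ := fun x hx =>
    (ContDiffAt.comp x (g := gc Pi v₀ v₁ pr) (gc_smooth h2 pr (hP x) hx.2)
      hR.contDiffAt).contDiffWithinAt
  have hprop : ∀ K ⊆ ball (0 : EuclideanSpace ℝ (Fin (2 * n + 2))) ε, IsCompact K →
      IsCompact (Z₀ ∩ u ⁻¹' K) := by
    intro K hK hKc
    have hc : Continuous fun w => Pi (ι w + v₁) := continuous_iff_continuousAt.2 fun w =>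
      (Paff_smooth h2 ι hι w).continuousAt
    have h3 : Z₀ ∩ u ⁻¹' K = A ∩ R ⁻¹' ((fun w => Pi (ι w + v₁)) '' K) := by
      ext x
      constructor
      · rintro ⟨⟨k1, k2⟩, k3⟩
        exact ⟨interior_subset k1, ⟨u x, k3, Pi_gc h2 hpr (hP x) k2⟩⟩
      · rintro ⟨k1, ⟨w, k2, k3⟩⟩
        have k3' : Pi (ι w + v₁) = R x := k3
        obtain ⟨k4, k5⟩ := gc_aff h2 ι hι hpr w
        rw [k3'] at k4 k5
        have k6 : u x = w := k5
        refine ⟨⟨?_, k4⟩, ?_⟩
        · by_contra k7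
          have k8 := hεf x (by rw [hAc.frontier_eq]; exact ⟨k1, k7⟩) k4
          have k9 := hK k2
          rw [mem_ball_zero_iff, ← k5] at k9
          linarith
        · rw [mem_preimage, k6]
          exact k2
    rw [h3]
    exact hA.inter_right ((hKc.image hc).isClosed.preimage hR.continuous)
  obtain ⟨N, hN⟩ := exists_int_open b bW.toBasis hZo isOpen_ball (convex_ball 0 ε) hus hprop
  have hN' := hN Wf hWs hWc hWt
  -- the exact parts
  let n0 := nu0 F hB hdiam hJ hρ a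
  let n1 := nu1 F hD hB hdiam hl hJ a h2 hδ
  let om : V → Lam V := (FE.FF F hD hB hdiam hl hJ hρ a).val f
  have hn1 : ∀ x, n1.d.val f x = extd (fun y => cc δ v₁ (R y) •
      pb (fun y => sg Pi v₀ v₁ (R y)) (FE.psi n a Pi o) y) x := fun x =>
    cutForm_d _ _ (hat x)
  have hin : ∀ x, x ∈ interior A → om x - n0.d.val f x - n1.d.val f x =
      Z₀.indicator (pb u Wf) x := by
    intro x hx
    obtain ⟨g, hgx⟩ := hg x
    have e1 := FF_split F hD hB hdiam hl hJ hρ a (hat x) hgx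
    have e2 : om x - n0.d.val f x = pb g (extd (FE.psi n a Pi o)) x := by
      rw [sub_eq_iff_eq_add, add_comm]
      exact e1
    have hPx : ∀ᶠ y in 𝓝 x, Pln Pi (R y) := Eventually.of_forall hP
    have hg1 := hgx.self_of_nhds
    rw [e2, hn1]
    by_cases h3 : R x = Pi v₀
    · have h4 : x ∉ Z₀ := fun h => h.2 h3
      rw [indicator_of_notMem h4, sub_eq_zero]
      exact split_far hs h2 a (hRs x) hPx hg1.1 (FE.ne_zero_of_unit hg1.2.1) (RM_sec hJ hgx) hδ
        (by rw [h3]; exact h2.ne) (by rw [h3]; exact hδ0)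
    · have h4 : x ∈ Z₀ := ⟨hx, h3⟩
      rw [indicator_of_mem h4, sub_eq_iff_eq_add, add_comm]
      exact split_near hs h2 ι hι a (hRs x) hPx hg1.1 (FE.ne_zero_of_unit hg1.2.1)
        (RM_sec hJ hgx) hpr hδ h3
  -- integrability
  have hint : ∀ w : Form ((W.dM E M).on {z | z ≠ p}),
      IntegrableOn (fun x => evalForm (w.val f x) b) A b.addHaar := fun w => by
    have h3 : Continuous (w.val f) := continuous_iff_continuousAt.2 fun x =>
      (w.smooth (hat x)).continuousAt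
    exact ((evalL b).continuous.comp h3).continuousOn.integrableOn_compact hA
  have hintF : IntegrableOn (fun x => evalForm (om x) b) A b.addHaar := by
    have h3 : Continuous om := continuous_iff_continuousAt.2 fun x =>
      ((FE.FF F hD hB hdiam hl hJ hρ a).smooth (hf x)).continuousAt
    exact ((evalL b).continuous.comp h3).continuousOn.integrableOn_compact hA
  have hsum : JD b A om = JD b A (fun x => om x - n0.d.val f x - n1.d.val f x) := by
    have e0 := hex n0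
    have e1 := hex n1
    unfold JD at e0 e1 ⊢
    simp only [Q.evalForm_sub]
    have i3 : Integrable (fun x => evalForm (om x) b - evalForm (n0.d.val f x) b)
        (b.addHaar.restrict A) := hintF.sub (hint n0.d)
    rw [integral_sub i3 (hint n1.d), integral_sub hintF (hint n0.d), e0, e1,
      sub_zero, sub_zero]
  have hres : JD b A (fun x => om x - n0.d.val f x - n1.d.val f x) = JD b Z₀ (pb u Wf) := by
    unfold JD
    rw [setIntegral_interior b.addHaar hAc h0]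
    have h3 : ∫ x in interior A, evalForm (om x - n0.d.val f x - n1.d.val f x) b ∂b.addHaar =
        ∫ x in interior A, Z₀.indicator (fun x => evalForm (pb u Wf x) b) x ∂b.addHaar := by
      refine setIntegral_congr_fun isOpen_interior.measurableSet fun x hx => ?_
      rw [hin x hx]
      by_cases h4 : x ∈ Z₀
      · rw [indicator_of_mem h4, indicator_of_mem h4]
      · rw [indicator_of_notMem h4, indicator_of_notMem h4, Q.evalForm_zero]
    rw [h3, setIntegral_indicator hZo.measurableSet,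
      inter_eq_self_of_subset_right (fun x (hx : x ∈ Z₀) => hx.1)]
  have hJJ : JJ bW.toBasis Wf = s * (a * ((2 * n + 1).factorial : ℝ)) *
        (((2 * n + 2 : ℕ) : ℝ) * (volume : Measure (EuclideanSpace ℝ (Fin (2 * n + 2)))).real
          (ball 0 1)) := by
    rw [← hs2, JJ, bW.coe_toBasis, bW.addHaar_eq_volume]
  have hfin : JD b A om = N * (s * (a * ((2 * n + 1).factorial : ℝ)) *
        (((2 * n + 2 : ℕ) : ℝ) * (volume : Measure (EuclideanSpace ℝ (Fin (2 * n + 2)))).real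
          (ball 0 1))) := by
    rw [hsum, hres, hN', hJJ]
  change ∃ N : ℤ, JD b A om = _
  rcases hs1 with rfl | rfl
  · exact ⟨N, by rw [hfin]; ring⟩
  · exact ⟨-N, by rw [hfin]; push_cast; ring⟩

end Vale.Agent.P231.S3M2
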