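import Vale.Agent.P231.FE.Std

/-!
# P231, stage 3, block (M2) (1): two planes of a spread span, oblique projections
-/

set_option linter.unusedSectionVars false

open Module Filter Topology
open scoped ContDiff

noncomputable section

namespace Vale.Agent.P231.S3M2

variable {T : Type*} [NormedAddCommGroup T] [InnerProductSpace ℝ T] [FiniteDimensional ℝ T]

/-- the component of `w` in the range of `A`, along the range of `B` -/
def pj (B : T →L[ℝ] T) (w : T) (A : T →L[ℝ] T) : T := A (Ring.inverse (A + B) w)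

section Gen

variable {A B : T →L[ℝ] T} {w : T}

theorem pj_add (hu : IsUnit (A + B)) : w - pj B w A = B (Ring.inverse (A + B) w) := by
  have h1 : (A + B) (Ring.inverse (A + B) w) = w := by
    have h2 := Ring.mul_inverse_cancel (A + B) hu
    have h3 := congrArg (fun L : T →L[ℝ] T => L w) h2
    exact h3
  rw [sub_eq_iff_eq_add, pj, add_comm]
  exact h1.symm

theorem smooth_pj (hu : IsUnit (A + B)) : ContDiffAt ℝ ∞ (pj B w) A := by
  have h1 : ContDiffAt ℝ ∞ (fun A : T →L[ℝ] T => A + B) A := by fun_prop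
  have h2 : ContDiffAt ℝ ∞ (fun A : T →L[ℝ] T => Ring.inverse (A + B)) A := by
    have h3 := contDiffAt_ringInverse ℝ (n := ∞) hu.unit
    rw [IsUnit.unit_spec] at h3
    exact h3.comp A h1
  exact contDiffAt_id.clm_apply (h2.clm_apply contDiffAt_const)

end Gen

/-- a plane of the spread -/
def Pln (Pi : T → T →L[ℝ] T) (A : T →L[ℝ] T) : Prop := ∃ u, u ≠ 0 ∧ A = Pi u

variable {m : ℕ} {Pi : T → T →L[ℝ] T}

section Planes

variable (hs : FE.Spread m Pi) {A B : T →L[ℝ] T}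
include hs

theorem Pln.idem (hA : Pln Pi A) (z : T) : A (A z) = A z := by
  obtain ⟨u, hu, rfl⟩ := hA
  exact hs.idem u hu z

theorem Pln.symm' (hA : Pln Pi A) (y z : T) : inner ℝ (A y) z = inner ℝ y (A z) := by
  obtain ⟨u, hu, rfl⟩ := hA
  exact hs.symm u hu y z

theorem Pln.eq (hA : Pln Pi A) {z : T} (hz : z ≠ 0) (h : A z = z) : A = Pi z := by
  obtain ⟨u, hu, rfl⟩ := hA
  exact (hs.rel u z hu hz h).symm

theorem Pln.inter (hA : Pln Pi A) (hB : Pln Pi B) (hAB : A ≠ B) {z : T} (h1 : A z = z)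
    (h2 : B z = z) : z = 0 := by
  by_contra hz
  exact hAB ((hA.eq hs hz h1).trans (hB.eq hs hz h2).symm)

theorem Pln.rank (hA : Pln Pi A) : finrank ℝ (LinearMap.range (A : T →ₗ[ℝ] T)) = m := by
  obtain ⟨u, hu, rfl⟩ := hA
  exact hs.rank u hu

theorem Pln.sup (hT : finrank ℝ T = 2 * m) (hA : Pln Pi A) (hB : Pln Pi B) (hAB : A ≠ B) :
    LinearMap.range (A : T →ₗ[ℝ] T) ⊔ LinearMap.range (B : T →ₗ[ℝ] T) = ⊤ := by
  refine Submodule.eq_top_of_disjoint _ _ ?_ ?_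
  · rw [hA.rank hs, hB.rank hs, hT, two_mul]
  · rw [Submodule.disjoint_def]
    rintro z ⟨y, hy⟩ ⟨y', hy'⟩
    refine hA.inter hs hB hAB ?_ ?_
    · rw [← hy]
      exact hA.idem hs y
    · rw [← hy']
      exact hB.idem hs y'

theorem Pln.isUnit (hT : finrank ℝ T = 2 * m) (hA : Pln Pi A) (hB : Pln Pi B) (hAB : A ≠ B) :
    IsUnit (A + B) := by
  have hinj : Function.Injective (A + B) := by
    refine (injective_iff_map_eq_zero _).2 fun x hx => ?_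
    have h1 : inner ℝ x (A x) + inner ℝ x (B x) = 0 := by
      rw [← inner_add_right]
      have : A x + B x = 0 := hx
      rw [this, inner_zero_right]
    have h2 : inner ℝ x (A x) = ‖A x‖ ^ 2 := by
      rw [← real_inner_self_eq_norm_sq, hA.symm' hs, hA.idem hs]
    have h3 : inner ℝ x (B x) = ‖B x‖ ^ 2 := by
      rw [← real_inner_self_eq_norm_sq, hB.symm' hs, hB.idem hs]
    rw [h2, h3] at h1
    have h4 : A x = 0 := by
      have : ‖A x‖ ^ 2 = 0 := by nlinarith [sq_nonneg ‖A x‖, sq_nonneg ‖B x‖]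
      exact norm_eq_zero.1 (pow_eq_zero_iff (two_ne_zero) |>.1 this)
    have h5 : B x = 0 := by
      have : ‖B x‖ ^ 2 = 0 := by nlinarith [sq_nonneg ‖A x‖, sq_nonneg ‖B x‖]
      exact norm_eq_zero.1 (pow_eq_zero_iff (two_ne_zero) |>.1 this)
    have h6 : x ∈ LinearMap.range (A : T →ₗ[ℝ] T) ⊔ LinearMap.range (B : T →ₗ[ℝ] T) := by
      rw [hA.sup hs hT hB hAB]
      trivial
    obtain ⟨_, ⟨y, rfl⟩, _, ⟨z, rfl⟩, hyz⟩ := Submodule.mem_sup.1 h6
    have h7 : inner ℝ x x = 0 := by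
      conv_lhs => rw [← hyz]
      rw [hyz, ← hyz, inner_add_right, hyz]
      change inner ℝ x (A y) + inner ℝ x (B z) = 0
      rw [← hA.symm' hs, ← hB.symm' hs, h4, h5, inner_zero_left, inner_zero_left, add_zero]
    exact inner_self_eq_zero.1 h7
  have hsurj : Function.Surjective (A + B) := by
    have := (LinearMap.injective_iff_surjective (f := ((A + B : T →L[ℝ] T) : T →ₗ[ℝ] T))).1 hinj
    exact this
  exact (ContinuousLinearMap.isUnit_iff_bijective).2 ⟨hinj, hsurj⟩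

end Planes

/-- two different planes of the spread -/
structure Two (m : ℕ) (Pi : T → T →L[ℝ] T) (v₀ v₁ : T) : Prop where
  sp : FE.Spread m Pi
  dim : finrank ℝ T = 2 * m
  z₀ : v₀ ≠ 0
  z₁ : v₁ ≠ 0
  ne : Pi v₀ ≠ Pi v₁

/-- the point of the plane `A` in `v₀ + P v₁` -/
def sg (Pi : T → T →L[ℝ] T) (v₀ v₁ : T) (A : T →L[ℝ] T) : T := pj (Pi v₁) v₀ A

namespace Two

variable {v₀ v₁ : T} (h : Two m Pi v₀ v₁)
include h

theorem symm : Two m Pi v₁ v₀ := ⟨h.sp, h.dim, h.z₁, h.z₀, h.ne.symm⟩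

theorem p₀ : Pln Pi (Pi v₀) := ⟨v₀, h.z₀, rfl⟩
theorem p₁ : Pln Pi (Pi v₁) := ⟨v₁, h.z₁, rfl⟩

variable {A : T →L[ℝ] T}

theorem unit (hA : Pln Pi A) (hne : A ≠ Pi v₁) : IsUnit (A + Pi v₁) :=
  hA.isUnit h.sp h.dim h.p₁ hne

theorem sg_mem (hA : Pln Pi A) : A (sg Pi v₀ v₁ A) = sg Pi v₀ v₁ A := hA.idem h.sp _

theorem sg_sub (hA : Pln Pi A) (hne : A ≠ Pi v₁) :
    Pi v₁ (v₀ - sg Pi v₀ v₁ A) = v₀ - sg Pi v₀ v₁ A := by
  rw [sg, pj_add (h.unit hA hne), h.p₁.idem h.sp]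

theorem sg_ne (hA : Pln Pi A) (hne : A ≠ Pi v₁) : sg Pi v₀ v₁ A ≠ 0 := by
  intro h0
  have h1 := h.sg_sub hA hne
  rw [h0, sub_zero] at h1
  exact h.ne.symm (h.p₁.eq h.sp h.z₀ h1)

theorem sg_smooth (hA : Pln Pi A) (hne : A ≠ Pi v₁) : ContDiffAt ℝ ∞ (sg Pi v₀ v₁) A :=
  smooth_pj (h.unit hA hne)

theorem Pi_sg (hA : Pln Pi A) (hne : A ≠ Pi v₁) : Pi (sg Pi v₀ v₁ A) = A :=
  (hA.eq h.sp (h.sg_ne hA hne) (h.sg_mem hA)).symm

theorem sg_unique (hA : Pln Pi A) (hne : A ≠ Pi v₁) {s : T} (h1 : A s = s)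
    (h2 : Pi v₁ (v₀ - s) = v₀ - s) : sg Pi v₀ v₁ A = s := by
  have h3 : Pi v₁ (s - sg Pi v₀ v₁ A) = s - sg Pi v₀ v₁ A := by
    have : s - sg Pi v₀ v₁ A = (v₀ - sg Pi v₀ v₁ A) - (v₀ - s) := by abel
    rw [this, map_sub, h.sg_sub hA hne, h2]
  have h4 : A (s - sg Pi v₀ v₁ A) = s - sg Pi v₀ v₁ A := by
    rw [map_sub, h1, h.sg_mem hA]
  exact (sub_eq_zero.1 (hA.inter h.sp h.p₁ hne h4 h3)).symm

theorem sg_self : sg Pi v₀ v₁ (Pi v₀) = v₀ :=
  h.sg_unique h.p₀ h.ne (h.sp.self _ h.z₀) (by rw [sub_self, map_zero])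

/-- the planes which are graphs over `P v₁` -/
theorem sg_graph {z : T} (hz : Pi v₁ z = z) : v₀ + z ≠ 0 ∧ Pi (v₀ + z) ≠ Pi v₁ ∧
    sg Pi v₀ v₁ (Pi (v₀ + z)) = v₀ + z := by
  have h1 : v₀ + z ≠ 0 := by
    intro h0
    have h2 : v₀ = -z := eq_neg_of_add_eq_zero_left h0
    have h3 : Pi v₁ v₀ = v₀ := by rw [h2, map_neg, hz]
    exact h.ne.symm (h.p₁.eq h.sp h.z₀ h3)
  have h2 : Pi (v₀ + z) ≠ Pi v₁ := by
    intro h0
    have h3 : Pi v₁ (v₀ + z) = v₀ + z := by rw [← h0, h.sp.self _ h1]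
    rw [map_add, hz] at h3
    exact h.ne.symm (h.p₁.eq h.sp h.z₀ (add_right_cancel h3))
  refine ⟨h1, h2, h.sg_unique ⟨_, h1, rfl⟩ h2 (h.sp.self _ h1) ?_⟩
  have h3 : v₀ - (v₀ + z) = -z := by abel
  rw [h3, map_neg, hz]

end Two

end Vale.Agent.P231.S3M2
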