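import Vale.Agent.P231.S3M2.Frm
import Vale.Agent.P231.FE.F

/-!
# P231, stage 3, block (M2) (5): the field of the planes on `M ∖ p`, and the exact part of `F`
-/

set_option maxSynthPendingDepth 3
set_option linter.unusedSectionVars false
set_option linter.unusedVariables false

open Bundle Manifold Module MeasureTheory Set Metric Filter
open scoped ContDiff Manifold Topology

noncomputable section

namespace Vale.Agent.P231.S3M2

open Fm
open Vale.Agent.P234 Vale.Agent.P231 Vale.Agent.P231.H775 Vale.Agent.P231.WE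

variable {E : Type*} [NormedAddCommGroup E] [NormedSpace ℝ E] [FiniteDimensional ℝ E]
  {M : Type*} [MetricSpace M] [ChartedSpace E M] [IsManifold 𝓘(ℝ, E) ∞ M]
  [RiemannianBundle (fun x : M => TangentSpace 𝓘(ℝ, E) x)]
  [IsContMDiffRiemannianBundle 𝓘(ℝ, E) ∞ E (fun x : M => TangentSpace 𝓘(ℝ, E) x)]
  {e : ∀ x : M, TangentSpace 𝓘(ℝ, E) x → M}

variable {D : ℝ} {p : M} {n : ℕ}
  {Pi : TangentSpace 𝓘(ℝ, E) p → TangentSpace 𝓘(ℝ, E) p →L[ℝ] TangentSpace 𝓘(ℝ, E) p}
  {o : TangentSpace 𝓘(ℝ, E) p → Fm.Lam (TangentSpace 𝓘(ℝ, E) p)}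
  {ρ : TangentSpace 𝓘(ℝ, E) p → ℝ} {r₀ : ℝ}

open Classical in
/-- the plane of the point `z ≠ p` -/
def RM (e : ∀ x : M, TangentSpace 𝓘(ℝ, E) x → M) (D : ℝ) (p : M)
    (Pi : TangentSpace 𝓘(ℝ, E) p → TangentSpace 𝓘(ℝ, E) p →L[ℝ] TangentSpace 𝓘(ℝ, E) p)
    (z : M) : TangentSpace 𝓘(ℝ, E) p →L[ℝ] TangentSpace 𝓘(ℝ, E) p :=
  if h : ∃ g : TangentSpace 𝓘(ℝ, E) p, ‖g‖ = 1 ∧ e p (D • g) = cutPt e D p z then
    Pi h.choose else 0

theorem RM_eq (hJ : FE.LineP e D p n Pi o) {z : M} {g : TangentSpace 𝓘(ℝ, E) p} (h1 : ‖g‖ = 1)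
    (h2 : e p (D • g) = cutPt e D p z) : RM e D p Pi z = Pi g := by
  have h : ∃ g : TangentSpace 𝓘(ℝ, E) p, ‖g‖ = 1 ∧ e p (D • g) = cutPt e D p z := ⟨g, h1, h2⟩
  unfold RM
  rw [dif_pos h]
  obtain ⟨k1, k2⟩ := h.choose_spec
  refine hJ.os.sp.rel _ _ (FE.ne_zero_of_unit h1) (FE.ne_zero_of_unit k1) ?_
  exact (hJ.cut _ _ h1 k1).1 (h2.trans k2.symm)

section Good

variable {V : Type*} [NormedAddCommGroup V] [NormedSpace ℝ V] [FiniteDimensional ℝ V]
  {u : V → M} {f : V → TangentSpace 𝓘(ℝ, E) p} {x : V}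

theorem RM_good (hJ : FE.LineP e D p n Pi o) (hf : Good e D p u f x) :
    ∀ᶠ y in 𝓝 x, RM e D p Pi (u y) = Pi (f y) := by
  filter_upwards [hf] with y hy
  exact RM_eq hJ hy.2.1 hy.2.2

theorem RM_sm (hJ : FE.LineP e D p n Pi o) (hf : Good e D p u f x) :
    Sm (fun y => RM e D p Pi (u y)) x := by
  refine Sm.congr (f := fun y => Pi (f y)) ?_ ((RM_good hJ hf).mono fun y hy => hy.symm)
  filter_upwards [hf] with y hy
  exact (hJ.os.sp.smooth _ (FE.ne_zero_of_unit hy.2.1)).comp y hy.1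

theorem RM_pln (hJ : FE.LineP e D p n Pi o) (hf : Good e D p u f x) :
    ∀ᶠ y in 𝓝 x, Pln Pi (RM e D p Pi (u y)) := by
  filter_upwards [hf, RM_good hJ hf] with y hy h1
  exact ⟨_, FE.ne_zero_of_unit hy.2.1, h1⟩

theorem RM_sec (hJ : FE.LineP e D p n Pi o) (hf : Good e D p u f x) :
    ∀ᶠ y in 𝓝 x, RM e D p Pi (u y) (f y) = f y := by
  filter_upwards [hf, RM_good hJ hf] with y hy h1
  rw [h1]
  exact hJ.os.sp.self _ (FE.ne_zero_of_unit hy.2.1)

end Good

variable [CompactSpace M] [ConnectedSpace M] [IsRiemannianManifold 𝓘(ℝ, E) M]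

section Split

variable (F : Facts e) (hD : 0 < D) (hB : InjGE e D)
    (hdiam : ∀ p q : M, dist p q ≤ D)
    (hl : ∀ x y : M, dist x y = D → finrank ℝ (Pl e D x y) = 2 * n + 2)
    (hJ : FE.LineP e D p n Pi o) (hρ : Rho e D p ρ r₀) (a : ℝ)

open Classical in
/-- the cutoff of the first exact part -/
def c0 (e : ∀ x : M, TangentSpace 𝓘(ℝ, E) x → M) (D : ℝ) (p : M)
    (ρ : TangentSpace 𝓘(ℝ, E) p → ℝ) (z : M) : ℝ :=
  if dist p z < D then ρ (logMap e p z) - 1 else 0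

include F hB hdiam hρ in
theorem cutOK0 : CutOK ((W.dM E M).on {z | z ≠ p}) (c0 e D p ρ) (dirAt e p) := by
  have key : ∀ {V : Type} [NormedAddCommGroup V] [NormedSpace ℝ V] [FiniteDimensional ℝ V]
      {u : V → M} {x : V}, ((W.dM E M).on {z | z ≠ p}).At u x →
      (∀ᶠ y in 𝓝 x, c0 e D p ρ (u y) = 0) ∨ (ContDiffAt ℝ ∞ (fun y => c0 e D p ρ (u y)) x ∧
        ContDiffAt ℝ ∞ (fun y => dirAt e p (u y)) x ∧ dirAt e p (u x) ≠ 0) := by
    intro V _ _ _ u x h
    have hu : ∀ᶠ y in 𝓝 x, ContMDiffAt 𝓘(ℝ, V) 𝓘(ℝ, E) ∞ u y := h.1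
    have hp : u x ≠ p := h.2.self_of_nhds
    have hc : ContinuousAt u x := hu.self_of_nhds.continuousAt
    rcases lt_or_eq_of_le (hdiam p (u x)) with hlt | heq
    · right
      have hg := good_dirAt F hB hu hlt hp
      have h1 : ∀ᶠ y in 𝓝 x, dist p (u y) < D :=
        (continuousAt_const.dist hc).eventually (gt_mem_nhds hlt)
      have h3 : ContDiffAt ℝ ∞ (fun y => logMap e p (u y)) x :=
        ((contMDiffAt_logMap_of_dist F hB hlt).comp x hu.self_of_nhds).contDiffAt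
      refine ⟨?_, hg.self_of_nhds.1, FE.ne_zero_of_unit hg.self_of_nhds.2.1⟩
      have h4 : (fun y => c0 e D p ρ (u y)) =ᶠ[𝓝 x] fun y => ρ (logMap e p (u y)) - 1 := by
        filter_upwards [h1] with y hy
        rw [c0, if_pos hy]
      exact ((hρ.smooth.contDiffAt.comp x h3).sub contDiffAt_const).congr_of_eventuallyEq h4
    · left
      have h1 : ∀ᶠ y in 𝓝 x, r₀ < dist p (u y) :=
        (continuousAt_const.dist hc).eventually (lt_mem_nhds (by rw [heq]; exact hρ.lt))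
      filter_upwards [h1] with y hy
      unfold c0
      split_ifs with h4
      · rw [hρ.one _ (by rw [(exp_logMap F hB h4).2]; exact hy), sub_self]
      · rfl
  refine ⟨fun {V} _ _ _ u x h => ?_, fun {V} _ _ _ u x h => ?_⟩
  · rcases key h with h1 | h1
    · exact (contDiffAt_const (c := (0 : ℝ))).congr_of_eventuallyEq h1
    · exact h1.1
  · rcases key h with h1 | h1
    · exact Or.inl h1
    · exact Or.inr h1.2

include F hD hB hdiam hl hJ in
theorem cutOK1 {v₀ v₁ : TangentSpace 𝓘(ℝ, E) p} (h2 : Two (2 * n + 2) Pi v₀ v₁) {δ : ℝ}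
    (hδ : 0 < δ) : CutOK ((W.dM E M).on {z | z ≠ p}) (fun z => cc δ v₁ (RM e D p Pi z))
      (fun z => sg Pi v₀ v₁ (RM e D p Pi z)) := by
  refine ⟨fun {V} _ _ _ u x h => ?_, fun {V} _ _ _ u x h => ?_⟩
  · obtain ⟨f, hf⟩ := exists_good F hD hB hdiam (l := 2 * n + 1) hl (u := u) h.1
      h.2.self_of_nhds
    exact (cc_smooth δ v₁).contDiffAt.comp x (RM_sm hJ hf).contDiffAt
  · obtain ⟨f, hf⟩ := exists_good F hD hB hdiam (l := 2 * n + 1) hl (u := u) h.1
      h.2.self_of_nhds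
    have hR := RM_sm hJ hf
    have hP := (RM_pln hJ hf).self_of_nhds
    by_cases h1 : RM e D p Pi (u x) = Pi v₁
    · left
      have h4 : RM e D p Pi (u x) v₁ = v₁ := by rw [h1, h2.sp.self _ h2.z₁]
      exact hR.continuousAt.eventually (cc_near_zero hδ h4)
    · right
      refine ⟨?_, h2.sg_ne hP h1⟩
      exact ContDiffAt.comp x (g := sg Pi v₀ v₁) (h2.sg_smooth hP h1) hR.contDiffAt

/-- the first exact part -/
def nu0 : Form ((W.dM E M).on {z | z ≠ p}) :=
  cutForm (cutOK0 F hB hdiam hρ) (w := FE.psi n a Pi o) fun z hz => hJ.os.psi_smooth a hz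

/-- the second exact part -/
def nu1 {v₀ v₁ : TangentSpace 𝓘(ℝ, E) p} (h2 : Two (2 * n + 2) Pi v₀ v₁) {δ : ℝ}
    (hδ : 0 < δ) : Form ((W.dM E M).on {z | z ≠ p}) :=
  cutForm (cutOK1 F hD hB hdiam hl hJ h2 hδ) (w := FE.psi n a Pi o) fun z hz =>
    hJ.os.psi_smooth a hz

/-- **`F` is exact up to the pull back of the basic form** -/
theorem FF_split {V : Type} [NormedAddCommGroup V] [NormedSpace ℝ V] [FiniteDimensional ℝ V]
    {u : V → M} {x : V} (h : ((W.dM E M).on {z | z ≠ p}).At u x)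
    {f : V → TangentSpace 𝓘(ℝ, E) p} (hf : Good e D p u f x) :
    (FE.FF F hD hB hdiam hl hJ hρ a).val u x =
      (nu0 F hB hdiam hJ hρ a).d.val u x + pb f (extd (FE.psi n a Pi o)) x := by
  have hu : ∀ᶠ y in 𝓝 x, ContMDiffAt 𝓘(ℝ, V) 𝓘(ℝ, E) ∞ u y := h.1
  have hp : u x ≠ p := h.2.self_of_nhds
  have hc : ContinuousAt u x := hu.self_of_nhds.continuousAt
  rw [nu0, cutForm_d _ _ h]
  rcases lt_or_eq_of_le (hdiam p (u x)) with hlt | heq
  · have h1 : ∀ᶠ y in 𝓝 x, dist p (u y) < D :=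
      (continuousAt_const.dist hc).eventually (gt_mem_nhds hlt)
    have hpy : ∀ᶠ y in 𝓝 x, u y ≠ p := h.2
    let lg : V → TangentSpace 𝓘(ℝ, E) p := fun y => logMap e p (u y)
    let di : V → TangentSpace 𝓘(ℝ, E) p := fun y => dirAt e p (u y)
    have hg := good_dirAt F hB hu hlt hp
    have hlg : ContDiffAt ℝ ∞ lg x :=
      ((contMDiffAt_logMap_of_dist F hB hlt).comp x hu.self_of_nhds).contDiffAt
    have hlg0 : lg x ≠ 0 := by
      rw [← norm_pos_iff]
      change 0 < ‖logMap e p (u x)‖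
      rw [(exp_logMap F hB hlt).2]
      exact dist_pos.2 hp.symm
    have hdi : ContDiffAt ℝ ∞ di x := hg.self_of_nhds.1
    have hdi0 : di x ≠ 0 := FE.ne_zero_of_unit hg.self_of_nhds.2.1
    have hf' : pb f (extd (FE.psi n a Pi o)) x = pb di (extd (FE.psi n a Pi o)) x :=
      FE.good_unique hJ a hf hg
    rw [FE.FF_lt F hD hB hdiam hl hJ hρ a h.1 hlt, hf']
    have e1 : DifferentiableAt ℝ (fun v => ρ v • FE.psi n a Pi o v) (lg x) :=
      (hρ.smooth.differentiable (by simp) _).smul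
        ((hJ.os.psi_smooth a hlg0).differentiableAt (by simp))
    have e2 : pb lg (FE.GG (FE.psi n a Pi o) ρ) x =
        extd (pb lg (fun v => ρ v • FE.psi n a Pi o v)) x :=
      (extd_pb (hlg.of_le two_le_inf) e1).symm
    have hcl : ContDiffAt ℝ ∞ (fun y => ρ (lg y)) x := hρ.smooth.contDiffAt.comp x hlg
    have hps : ContDiffAt ℝ ∞ (pb di (FE.psi n a Pi o)) x := psi_pb_smooth hJ.os a hdi hdi0
    have e3 : pb lg (fun v => ρ v • FE.psi n a Pi o v) =ᶠ[𝓝 x]
        fun y => ρ (lg y) • pb di (FE.psi n a Pi o) y := by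
      filter_upwards [h1, hpy, h1.eventually_nhds, hu, hg] with y hy1 hy2 hy3 hy4 hy5
      have h3 : DifferentiableAt ℝ (fun z => dist p (u z)) y :=
        (((contMDiffAt_dist F hB hy1 hy2).comp y hy4).contDiffAt).differentiableAt (by simp)
      have hpz : ∀ᶠ z in 𝓝 y, u z ≠ p := hy4.continuousAt.eventually (isOpen_ne.mem_nhds hy2)
      have h4 : lg =ᶠ[𝓝 y] fun z => dist p (u z) • di z := by
        filter_upwards [hy3, hpz] with z hz1 hz2
        exact (smul_dirAt F hB hz1 hz2).symm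
      have h5 : pb lg (FE.psi n a Pi o) y = pb di (FE.psi n a Pi o) y := by
        rw [pb_congr _ h4]
        exact hJ.os.pb_smul a (hy5.1.differentiableAt (by simp)) h3
          (FE.ne_zero_of_unit hy5.2.1) (dist_pos.2 hy2.symm)
      rw [← h5, pb, map_smul]
      rfl
    have e4 : (fun y => c0 e D p ρ (u y) • pb (fun y => dirAt e p (u y)) (FE.psi n a Pi o) y)
        =ᶠ[𝓝 x] fun y => ρ (lg y) • pb di (FE.psi n a Pi o) y - pb di (FE.psi n a Pi o) y := by
      filter_upwards [h1] with y hy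
      rw [c0, if_pos hy, sub_smul, one_smul]
    refine e2.trans ?_
    have e5 : DifferentiableAt ℝ (fun y => ρ (lg y) • pb di (FE.psi n a Pi o) y) x :=
      (hcl.smul hps).differentiableAt (by simp)
    rw [extd_congr e3, extd_congr e4, extd_sub e5
      (hps.differentiableAt (by simp)), extd_pb_psi hJ.os a hdi hdi0]
    abel
  · have hr : r₀ < dist p (u x) := by rw [heq]; exact hρ.lt
    have h1 : ∀ᶠ y in 𝓝 x, r₀ < dist p (u y) :=
      (continuousAt_const.dist hc).eventually (lt_mem_nhds hr)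
    rw [FE.FF_good F hD hB hdiam hl hJ hρ a h.1 hr hf]
    have e4 : (fun y => c0 e D p ρ (u y) • pb (fun y => dirAt e p (u y)) (FE.psi n a Pi o) y)
        =ᶠ[𝓝 x] fun _ => 0 := by
      filter_upwards [h1] with y hy
      have h5 : c0 e D p ρ (u y) = 0 := by
        unfold c0
        split_ifs with h4
        · rw [hρ.one _ (by rw [(exp_logMap F hB h4).2]; exact hy), sub_self]
        · rfl
      rw [h5, zero_smul]
    rw [extd_congr e4, extd_const, zero_add]

end Split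

end Vale.Agent.P231.S3M2
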